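import Vale.Agent.P321.Bdl.B5
import Mathlib.Analysis.Normed.Group.Basic
import Mathlib.Analysis.Normed.Ring.Basic
import Mathlib.Analysis.Normed.Module.Basic

/-!
P321, deletion probability near one: words in two close letters with equal iterated suffix sums
have close laws.
-/

namespace Vale.Agent.P321.H79.Deck

/-! ### suffix sums -/

/-- sums over the proper suffixes of a list -/
def suf : List ℕ → List ℕ
  | [] => []
  | [_] => []
  | _ :: b :: c => (b :: c).sum :: suf (b :: c)

theorem suf_length : ∀ c : List ℕ, (suf c).length = c.length - 1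
  | [] => rfl
  | [_] => rfl
  | _ :: b :: c => by
      have ih := suf_length (b :: c)
      rw [suf, List.length_cons, ih, List.length_cons, List.length_cons]
      rfl

theorem suf_sum_le : ∀ c : List ℕ, (suf c).sum ≤ c.length * c.sum
  | [] => le_rfl
  | [_] => Nat.zero_le _
  | a :: b :: c => by
      have ih := suf_sum_le (b :: c)
      rw [suf, List.sum_cons (a := (b :: c).sum), List.length_cons (a := a),
        List.sum_cons (a := a)]
      have h : (b :: c).sum + (suf (b :: c)).sum ≤ ((b :: c).length + 1) * (b :: c).sum := by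
        linarith
      exact h.trans (Nat.mul_le_mul_left _ (Nat.le_add_left _ _))

theorem iter_length (c : List ℕ) (j : ℕ) : (suf^[j] c).length ≤ c.length := by
  induction j with
  | zero => exact le_rfl
  | succ j ih =>
    rw [Function.iterate_succ_apply', suf_length]
    omega

theorem iter_sum (c : List ℕ) {N : ℕ} (h : c.length ≤ N) (j : ℕ) :
    (suf^[j] c).sum ≤ N ^ j * c.sum := by
  induction j with
  | zero => simp
  | succ j ih =>
    rw [Function.iterate_succ_apply']
    refine (suf_sum_le _).trans ?_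
    calc (suf^[j] c).length * (suf^[j] c).sum ≤ N * (N ^ j * c.sum) :=
          Nat.mul_le_mul ((iter_length c j).trans h) ih
      _ = N ^ (j + 1) * c.sum := by ring

theorem sum_toNat (l : List Bool) : (l.map Bool.toNat).sum ≤ l.length := by
  induction l with
  | nil => simp
  | cons b l ih =>
    rw [List.map_cons, List.sum_cons, List.length_cons]
    have := Bool.toNat_le b
    omega

/-- pigeonhole -/
theorem exists_pair {N D : ℕ} (hN : 1 ≤ N) (h : (N ^ D + 1) ^ D < 2 ^ N) :
    ∃ l l' : List Bool, l ≠ l' ∧ l.length = N ∧ l'.length = N ∧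
      ∀ j < D, (suf^[j] (l.map Bool.toNat)).sum = (suf^[j] (l'.map Bool.toNat)).sum := by
  classical
  have hb : ∀ (x : Fin N → Bool) (j : Fin D),
      (suf^[(j : ℕ)] ((List.ofFn x).map Bool.toNat)).sum < N ^ D + 1 := by
    intro x j
    have h1 := iter_sum ((List.ofFn x).map Bool.toNat) (N := N) (by simp) j
    have h2 := sum_toNat (List.ofFn x)
    rw [List.length_ofFn] at h2
    refine Nat.lt_succ_of_le (h1.trans ?_)
    calc N ^ (j : ℕ) * ((List.ofFn x).map Bool.toNat).sum ≤ N ^ (j : ℕ) * N :=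
          Nat.mul_le_mul_left _ h2
      _ = N ^ ((j : ℕ) + 1) := (pow_succ _ _).symm
      _ ≤ N ^ D := Nat.pow_le_pow_right hN j.2
  obtain ⟨x, y, hxy, he⟩ := Fintype.exists_ne_map_eq_of_card_lt
    (fun x : Fin N → Bool => fun j : Fin D =>
      (⟨_, hb x j⟩ : Fin (N ^ D + 1))) (by simpa using h)
  refine ⟨List.ofFn x, List.ofFn y, fun e => hxy (List.ofFn_injective e), by simp, by simp,
    fun j hj => ?_⟩
  have := congrFun he ⟨j, hj⟩
  simpa using this

/-! ### the first order part -/

section ring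

variable {R : Type*} [NormedRing R] [NormedAlgebra ℝ R]

/-- `∑ⱼ cⱼ V ^ j δ V ^ (len - 1 - j)` -/
noncomputable def TT (V : R) : List ℕ → R → R
  | [], _ => 0
  | a :: c, δ => (a : ℝ) • (δ * V ^ c.length) + V * TT V c δ

theorem TT_nil (V δ : R) : TT V [] δ = 0 := rfl
theorem TT_cons (V δ : R) (a : ℕ) (c : List ℕ) :
    TT V (a :: c) δ = (a : ℝ) • (δ * V ^ c.length) + V * TT V c δ := rfl

theorem TT_suf (V δ : R) : ∀ c : List ℕ, c ≠ [] →
    TT V c δ = (c.sum : ℝ) • (δ * V ^ (c.length - 1)) + TT V (suf c) (V * δ - δ * V)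
  | [], h => absurd rfl h
  | [a], _ => by simp [TT, suf]
  | a :: b :: c, _ => by
      have ih := TT_suf V δ (b :: c) (List.cons_ne_nil _ _)
      rw [TT_cons V δ a, ih, suf, TT_cons, suf_length, List.sum_cons (a := a),
        List.length_cons (a := a), Nat.add_sub_cancel, List.length_cons, Nat.add_sub_cancel]
      generalize (b :: c).sum = s
      generalize TT V (suf (b :: c)) (V * δ - δ * V) = T
      generalize c.length = n
      rw [mul_add, mul_smul_comm, sub_mul, mul_assoc V δ, mul_assoc δ V, ← pow_succ',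
        Nat.cast_add, add_smul, smul_sub]
      abel

theorem TT_norm {V : R} (hV : ∀ n : ℕ, ‖V ^ n‖ ≤ 1) (δ : R) :
    ∀ c : List ℕ, ‖TT V c δ‖ ≤ c.sum * ‖δ‖
  | [] => by simp [TT]
  | a :: c => by
      have ih := TT_norm hV δ c
      have hV1 : ‖V‖ ≤ 1 := by simpa using hV 1
      have h1 : ‖(a : ℝ) • (δ * V ^ c.length)‖ ≤ a * ‖δ‖ := by
        refine (norm_smul_le _ _).trans ?_
        rw [Real.norm_natCast]
        refine mul_le_mul_of_nonneg_left ?_ (Nat.cast_nonneg a)
        exact (norm_mul_le _ _).trans (mul_le_of_le_one_right (norm_nonneg _) (hV _))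
      have h2 : ‖V * TT V c δ‖ ≤ c.sum * ‖δ‖ :=
        (norm_mul_le _ _).trans ((mul_le_of_le_one_left (norm_nonneg _) hV1).trans ih)
      rw [TT_cons, List.sum_cons, Nat.cast_add, add_mul]
      exact (norm_add_le _ _).trans (add_le_add h1 h2)

theorem comm_norm {V : R} {ε : ℝ} (hε : ‖V - 1‖ ≤ ε) (δ : R) :
    ‖V * δ - δ * V‖ ≤ 2 * ε * ‖δ‖ := by
  have e : V * δ - δ * V = (V - 1) * δ - δ * (V - 1) := by noncomm_ring
  rw [e]
  have h1 : ‖(V - 1) * δ‖ ≤ ε * ‖δ‖ :=
    (norm_mul_le _ _).trans (mul_le_mul_of_nonneg_right hε (norm_nonneg _))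
  have h2 : ‖δ * (V - 1)‖ ≤ ‖δ‖ * ε :=
    (norm_mul_le _ _).trans (mul_le_mul_of_nonneg_left hε (norm_nonneg _))
  have := norm_sub_le ((V - 1) * δ) (δ * (V - 1))
  linarith

theorem TT_close {V : R} (hV : ∀ n : ℕ, ‖V ^ n‖ ≤ 1) {ε : ℝ} (hε : ‖V - 1‖ ≤ ε) {N : ℕ} :
    ∀ (D : ℕ) (c c' : List ℕ) (δ : R), c.length = c'.length → c.length ≤ N →
      (∀ j < D, (suf^[j] c).sum = (suf^[j] c').sum) →
      ‖TT V c δ - TT V c' δ‖ ≤ (N : ℝ) ^ D * ((c.sum : ℝ) + c'.sum) * (2 * ε) ^ D * ‖δ‖ := by
  intro D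
  have hε0 : 0 ≤ ε := (norm_nonneg _).trans hε
  induction D with
  | zero =>
    intro c c' δ _ _ _
    have h1 := TT_norm hV δ c
    have h2 := TT_norm hV δ c'
    have := norm_sub_le (TT V c δ) (TT V c' δ)
    simp only [pow_zero, one_mul, mul_one]
    linarith
  | succ D ih =>
    intro c c' δ hl hN h
    by_cases hc : c = []
    · subst hc
      have hc' : c' = [] := List.eq_nil_of_length_eq_zero hl.symm
      subst hc'
      rw [sub_self, norm_zero]
      positivity
    · have hc' : c' ≠ [] := by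
        rintro rfl
        exact hc (List.eq_nil_of_length_eq_zero hl)
      have h0 : c.sum = c'.sum := h 0 (Nat.succ_pos D)
      rw [TT_suf V δ c hc, TT_suf V δ c' hc', h0, hl, add_sub_add_left_eq_sub]
      have hl2 : (suf c).length = (suf c').length := by rw [suf_length, suf_length, hl]
      have hN2 : (suf c).length ≤ N := by rw [suf_length]; omega
      have key := ih (suf c) (suf c') (V * δ - δ * V) hl2 hN2 (fun j hj => by
        have := h (j + 1) (Nat.succ_lt_succ hj)
        rwa [Function.iterate_succ_apply, Function.iterate_succ_apply] at this)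
      have s1 : ((suf c).sum : ℝ) ≤ N * c.sum := by
        have := (suf_sum_le c).trans (Nat.mul_le_mul_right _ hN)
        exact_mod_cast this
      have s2 : ((suf c').sum : ℝ) ≤ N * c'.sum := by
        have := (suf_sum_le c').trans (Nat.mul_le_mul_right _ (hl ▸ hN))
        exact_mod_cast this
      have hk := comm_norm hε δ
      rw [h0] at s1
      refine key.trans ?_
      calc (N : ℝ) ^ D * (((suf c).sum : ℝ) + (suf c').sum) * (2 * ε) ^ D * ‖V * δ - δ * V‖
          ≤ (N : ℝ) ^ D * (N * c'.sum + N * c'.sum) * (2 * ε) ^ D * (2 * ε * ‖δ‖) := by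
            gcongr
        _ = (N : ℝ) ^ (D + 1) * ((c'.sum : ℝ) + c'.sum) * (2 * ε) ^ (D + 1) * ‖δ‖ := by ring

/-! ### products of letters -/

/-- product of letters -/
def pr (V Z : R) : List Bool → R
  | [] => 1
  | b :: l => (if b then Z else V) * pr V Z l

theorem pr_nil (V Z : R) : pr V Z [] = 1 := rfl
theorem pr_cons (V Z : R) (b : Bool) (l : List Bool) :
    pr V Z (b :: l) = (if b then Z else V) * pr V Z l := rfl

theorem pr_first {V Z : R} (hV : ∀ n : ℕ, ‖V ^ n‖ ≤ 1) (hp : ∀ l, ‖pr V Z l‖ ≤ 1) :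
    ∀ l : List Bool, ‖pr V Z l - V ^ l.length‖ ≤ l.length * ‖Z - V‖
  | [] => by simp [pr_nil]
  | b :: l => by
      have ih := pr_first hV hp l
      have hV1 : ‖V‖ ≤ 1 := by simpa using hV 1
      have h2 : ‖V * (pr V Z l - V ^ l.length)‖ ≤ l.length * ‖Z - V‖ :=
        (norm_mul_le _ _).trans ((mul_le_of_le_one_left (norm_nonneg _) hV1).trans ih)
      have h0 := norm_nonneg (Z - V)
      rw [pr_cons, List.length_cons, pow_succ', Nat.cast_add, Nat.cast_one, add_mul, one_mul]
      cases b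
      · rw [if_neg Bool.false_ne_true, ← mul_sub]
        linarith
      · rw [if_pos rfl]
        have e : Z * pr V Z l - V * V ^ l.length
            = (Z - V) * pr V Z l + V * (pr V Z l - V ^ l.length) := by noncomm_ring
        have h3 : ‖(Z - V) * pr V Z l‖ ≤ ‖Z - V‖ :=
          (norm_mul_le _ _).trans (mul_le_of_le_one_right (norm_nonneg _) (hp _))
        rw [e]
        have := norm_add_le ((Z - V) * pr V Z l) (V * (pr V Z l - V ^ l.length))
        linarith

theorem pr_second {V Z : R} (hV : ∀ n : ℕ, ‖V ^ n‖ ≤ 1) (hp : ∀ l, ‖pr V Z l‖ ≤ 1) :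
    ∀ l : List Bool, ‖pr V Z l - V ^ l.length - TT V (l.map Bool.toNat) (Z - V)‖
      ≤ (l.length : ℝ) ^ 2 * ‖Z - V‖ ^ 2
  | [] => by simp [pr_nil, TT_nil]
  | b :: l => by
      have ih := pr_second hV hp l
      have hV1 : ‖V‖ ≤ 1 := by simpa using hV 1
      have h2 : ‖V * (pr V Z l - V ^ l.length - TT V (l.map Bool.toNat) (Z - V))‖
          ≤ (l.length : ℝ) ^ 2 * ‖Z - V‖ ^ 2 :=
        (norm_mul_le _ _).trans ((mul_le_of_le_one_left (norm_nonneg _) hV1).trans ih)
      have h0 := norm_nonneg (Z - V)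
      have h00 : (0 : ℝ) ≤ l.length := Nat.cast_nonneg _
      have h4 : (0 : ℝ) ≤ l.length * ‖Z - V‖ ^ 2 := by positivity
      have h5 : (0 : ℝ) ≤ ‖Z - V‖ ^ 2 := by positivity
      rw [List.map_cons, TT_cons, pr_cons, List.length_cons, List.length_map, Nat.cast_add,
        Nat.cast_one, add_sq]
      cases b
      · rw [if_neg Bool.false_ne_true]
        have e : V * pr V Z l - V ^ (l.length + 1) - (((Bool.toNat false : ℕ) : ℝ) •
            ((Z - V) * V ^ l.length) + V * TT V (l.map Bool.toNat) (Z - V))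
            = V * (pr V Z l - V ^ l.length - TT V (l.map Bool.toNat) (Z - V)) := by
          simp only [Bool.toNat_false, Nat.cast_zero, zero_smul, zero_add, pow_succ', mul_sub]
        rw [e]
        nlinarith
      · rw [if_pos rfl]
        have e : Z * pr V Z l - V ^ (l.length + 1) - (((Bool.toNat true : ℕ) : ℝ) •
            ((Z - V) * V ^ l.length) + V * TT V (l.map Bool.toNat) (Z - V))
            = (Z - V) * (pr V Z l - V ^ l.length)
              + V * (pr V Z l - V ^ l.length - TT V (l.map Bool.toNat) (Z - V)) := by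
          simp only [Bool.toNat_true, Nat.cast_one, one_smul, pow_succ']
          noncomm_ring
        have h3 : ‖(Z - V) * (pr V Z l - V ^ l.length)‖ ≤ ‖Z - V‖ * (l.length * ‖Z - V‖) :=
          (norm_mul_le _ _).trans
            (mul_le_mul_of_nonneg_left (pr_first hV hp l) (norm_nonneg _))
        rw [e]
        have := norm_add_le ((Z - V) * (pr V Z l - V ^ l.length))
          (V * (pr V Z l - V ^ l.length - TT V (l.map Bool.toNat) (Z - V)))
        nlinarith

theorem pr_diff {V Z : R} (hV : ∀ n : ℕ, ‖V ^ n‖ ≤ 1) (hp : ∀ l, ‖pr V Z l‖ ≤ 1) {ε : ℝ}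
    (hε : ‖V - 1‖ ≤ ε) {N D : ℕ} {l l' : List Bool} (hl : l.length = N) (hl' : l'.length = N)
    (h : ∀ j < D, (suf^[j] (l.map Bool.toNat)).sum = (suf^[j] (l'.map Bool.toNat)).sum) :
    ‖pr V Z l - pr V Z l'‖ ≤
      2 * (N : ℝ) ^ 2 * ‖Z - V‖ ^ 2 + (N : ℝ) ^ D * (2 * N) * (2 * ε) ^ D * ‖Z - V‖ := by
  have hε0 : 0 ≤ ε := (norm_nonneg _).trans hε
  have h1 := pr_second hV hp l
  have h2 := pr_second hV hp l'
  have h3 := TT_close hV hε (N := N) D (l.map Bool.toNat) (l'.map Bool.toNat) (Z - V)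
    (by rw [List.length_map, List.length_map, hl, hl']) (by rw [List.length_map, hl]) h
  rw [hl] at h1
  rw [hl'] at h2
  have s1 : ((l.map Bool.toNat).sum : ℝ) ≤ N := by
    have := sum_toNat l
    rw [hl] at this
    exact_mod_cast this
  have s2 : ((l'.map Bool.toNat).sum : ℝ) ≤ N := by
    have := sum_toNat l'
    rw [hl'] at this
    exact_mod_cast this
  have h4 : ‖TT V (l.map Bool.toNat) (Z - V) - TT V (l'.map Bool.toNat) (Z - V)‖
      ≤ (N : ℝ) ^ D * (2 * N) * (2 * ε) ^ D * ‖Z - V‖ := by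
    refine h3.trans ?_
    have : ((l.map Bool.toNat).sum : ℝ) + (l'.map Bool.toNat).sum ≤ 2 * N := by linarith
    gcongr
  have e : pr V Z l - pr V Z l' =
      (pr V Z l - V ^ N - TT V (l.map Bool.toNat) (Z - V))
      - (pr V Z l' - V ^ N - TT V (l'.map Bool.toNat) (Z - V))
      + (TT V (l.map Bool.toNat) (Z - V) - TT V (l'.map Bool.toNat) (Z - V)) := by abel
  rw [e]
  refine (norm_add_le _ _).trans (add_le_add ((norm_sub_le _ _).trans ?_) h4)
  linarith

end ring

end Vale.Agent.P321.H79.Deck
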