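import Vale.Agent.P321.H79.DeckWords
import Mathlib.Analysis.SpecialFunctions.Pow.Asymptotics

/-!
P321, deletion probability near one: the lower bounds.
-/

namespace Vale.Agent.P321.H79.Deck

open scoped unitInterval
open Filter Topology

theorem two_pow_le_exp (k : ℕ) : (2 : ℝ) ^ k ≤ Real.exp k := by
  have h := Real.add_one_le_exp (1 : ℝ)
  calc (2 : ℝ) ^ k ≤ Real.exp 1 ^ k := pow_le_pow_left₀ (by norm_num) (by linarith) k
    _ = Real.exp k := by rw [← Real.exp_nat_mul, mul_one]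

theorem exp_le_two_pow (k : ℕ) : Real.exp ((k : ℝ) / 2) ≤ (2 : ℝ) ^ k := by
  have h := Real.log_two_gt_d9
  rw [← Real.rpow_natCast, Real.rpow_def_of_pos (by norm_num)]
  apply Real.exp_le_exp.2
  have : (0 : ℝ) ≤ k := Nat.cast_nonneg k
  nlinarith

/-- the main bound: `t ≤ n`, `t (1 - q) ≤ 1` -/
theorem lower (q : I) (n : ℕ) (t : ℝ) (ht0 : Real.exp 400 ≤ t) (htn : t ≤ n)
    (htq : t * (1 - (q : ℝ)) ≤ 1) :
    (⌈Real.exp (Real.exp (1 / 8 * √(Real.log t)) *
      (1 + Real.log (1 / (t * (1 - (q : ℝ))))))⌉₊ : ℕ∞) ≤ T q n := by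
  have ht : 0 < t := (Real.exp_pos _).trans_le ht0
  have hL : 400 ≤ Real.log t := (Real.le_log_iff_exp_le ht).2 ht0
  set s := √(Real.log t) with hs
  have hs2 : s ^ 2 = Real.log t := Real.sq_sqrt (by linarith)
  have hs20 : 20 ≤ s := by
    rw [hs]
    apply Real.le_sqrt_of_sq_le
    linarith
  set i : ℕ := ⌊s / 2⌋₊ with hi
  have hi1 : (i : ℝ) ≤ s / 2 := Nat.floor_le (by linarith)
  have hi2 : s / 2 < i + 1 := Nat.lt_floor_add_one _
  obtain ⟨u, v, hne, hlen, hl, hc⟩ := level i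
  have hp : (0 : ℝ) ≤ 1 - q := by linarith [q.2.2]
  set y : ℝ := t * (1 - (q : ℝ)) with hy
  have hk : (kk i : ℝ) + 1 ≤ Real.log t := by
    have h1 : ((kk i + 1 : ℕ) : ℝ) ≤ ((2 * (i + 2) ^ 2 + 1 : ℕ) : ℝ) := by
      exact_mod_cast kk_bound i
    push_cast at h1
    have h2 : ((i : ℝ) + 2) ^ 2 ≤ (s / 2 + 2) ^ 2 := by
      apply pow_le_pow_left₀ (by positivity)
      linarith
    rw [← hs2]
    nlinarith
  have hkt : (2 : ℝ) ^ (kk i + 1) ≤ t := by
    refine (two_pow_le_exp _).trans ?_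
    rw [← Real.exp_log ht]
    apply Real.exp_le_exp.2
    push_cast
    exact hk
  have hln : u.length ≤ n := by
    have h1 : ((u.length : ℕ) : ℝ) ≤ n := by
      rw [hl]
      push_cast
      refine le_trans ?_ (hkt.trans htn)
      apply pow_le_pow_right₀ (by norm_num)
      unfold kk
      omega
    exact_mod_cast h1
  have hhalf : (2 : ℝ) ^ kk i * (1 - (q : ℝ)) ≤ y / 2 := by
    have h1 : (2 : ℝ) ^ (kk i + 1) * (1 - (q : ℝ)) ≤ y := mul_le_mul_of_nonneg_right hkt hp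
    rw [pow_succ] at h1
    linarith
  have hsmall : ‖W q v - W q u‖ ≤ (y / 2) ^ (2 ^ i) :=
    (hc q).trans (pow_le_pow_left₀ (by positivity) hhalf _)
  unfold T
  refine le_iInf₂ fun m hm => ?_
  have key := lower_of_close q hne hlen hln hm
  have key1 : 1 ≤ 3 * (m : ℝ) * (y / 2) ^ (2 ^ i) :=
    key.trans (mul_le_mul_of_nonneg_left hsmall (by positivity))
  have hy0 : 0 < y := by
    rcases (mul_nonneg ht.le hp).lt_or_eq with h | h
    · exact h
    · exfalso
      rw [← hy] at h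
      rw [← h, zero_div, zero_pow (by positivity), mul_zero] at key1
      linarith
  have hy1 : 1 ≤ 1 / y := one_le_one_div hy0 htq
  set L := Real.log (1 / y) with hLdef
  have hL0 : 0 ≤ L := Real.log_nonneg hy1
  have key2 : (2 : ℝ) ^ (2 ^ i) * (1 / y) ^ (2 ^ i) ≤ 3 * m := by
    have h2 : (0 : ℝ) < 2 ^ (2 ^ i) * (1 / y) ^ (2 ^ i) := by positivity
    have h3 : (y / 2) ^ (2 ^ i) * ((2 : ℝ) ^ (2 ^ i) * (1 / y) ^ (2 ^ i)) = 1 := by
      rw [← mul_pow, ← mul_pow, show y / 2 * (2 * (1 / y)) = 1 by field_simp, one_pow]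
    have := mul_le_mul_of_nonneg_right key1 h2.le
    rwa [one_mul, mul_assoc, h3, mul_one] at this
  have hE : 4 * Real.exp (1 / 8 * s) ≤ (2 : ℝ) ^ i := by
    have h4 : (4 : ℝ) ≤ Real.exp 2 := by
      have h := Real.add_one_le_exp (1 : ℝ)
      have e : Real.exp 2 = Real.exp 1 ^ 2 := by rw [← Real.exp_nat_mul]; norm_num
      rw [e]
      nlinarith
    calc 4 * Real.exp (1 / 8 * s) ≤ Real.exp 2 * Real.exp (1 / 8 * s) := by gcongr
      _ = Real.exp (2 + 1 / 8 * s) := (Real.exp_add _ _).symm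
      _ ≤ Real.exp ((i : ℝ) / 2) := Real.exp_le_exp.2 (by linarith)
      _ ≤ _ := exp_le_two_pow i
  have hE1 : 3 ≤ Real.exp (1 / 8 * s) := by
    have := Real.add_one_le_exp (1 / 8 * s)
    linarith
  have h3 : (3 : ℝ) ≤ Real.exp 2 := by
    have := Real.add_one_le_exp (2 : ℝ); linarith
  have h5 : 3 * Real.exp (Real.exp (1 / 8 * s)) ≤ (2 : ℝ) ^ (2 ^ i) := by
    calc 3 * Real.exp (Real.exp (1 / 8 * s))
        ≤ Real.exp 2 * Real.exp (Real.exp (1 / 8 * s)) := by gcongr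
      _ = Real.exp (2 + Real.exp (1 / 8 * s)) := (Real.exp_add _ _).symm
      _ ≤ Real.exp (((2 ^ i : ℕ) : ℝ) / 2) := by
          apply Real.exp_le_exp.2
          push_cast
          linarith
      _ ≤ (2 : ℝ) ^ (2 ^ i) := exp_le_two_pow _
  have h6 : Real.exp (Real.exp (1 / 8 * s) * L) ≤ (1 / y) ^ (2 ^ i) := by
    calc Real.exp (Real.exp (1 / 8 * s) * L) ≤ Real.exp (((2 ^ i : ℕ) : ℝ) * L) := by
          apply Real.exp_le_exp.2
          apply mul_le_mul_of_nonneg_right _ hL0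
          push_cast
          linarith
      _ = (1 / y) ^ (2 ^ i) := by rw [Real.exp_nat_mul, hLdef, Real.exp_log (by positivity)]
  have hfin : Real.exp (Real.exp (1 / 8 * s) * (1 + L)) ≤ m := by
    have h7 : 3 * Real.exp (Real.exp (1 / 8 * s) * (1 + L)) ≤ 3 * m := by
      calc 3 * Real.exp (Real.exp (1 / 8 * s) * (1 + L))
          = (3 * Real.exp (Real.exp (1 / 8 * s))) * Real.exp (Real.exp (1 / 8 * s) * L) := by
            rw [mul_add, mul_one, Real.exp_add, mul_assoc]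
        _ ≤ (2 : ℝ) ^ (2 ^ i) * (1 / y) ^ (2 ^ i) := by gcongr
        _ ≤ 3 * m := key2
    linarith
  exact_mod_cast Nat.ceil_le.2 hfin

theorem lower_simple (q : I) (n : ℕ) (t : ℝ) (ht0 : Real.exp 400 ≤ t) (htn : t ≤ n)
    (htq : t * (1 - (q : ℝ)) ≤ 1) :
    (⌈Real.exp (Real.exp (1 / 8 * √(Real.log t)))⌉₊ : ℕ∞) ≤ T q n := by
  have hp : (0 : ℝ) ≤ 1 - q := by linarith [q.2.2]
  have ht : 0 < t := (Real.exp_pos _).trans_le ht0
  refine le_trans ?_ (lower q n t ht0 htn htq)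
  have h0 : 0 ≤ Real.log (1 / (t * (1 - (q : ℝ)))) := by
    rcases (mul_nonneg ht.le hp).lt_or_eq with h | h
    · exact Real.log_nonneg (one_le_one_div h htq)
    · rw [← h, div_zero, Real.log_zero]
  have h1 : ⌈Real.exp (Real.exp (1 / 8 * √(Real.log t)))⌉₊ ≤
      ⌈Real.exp (Real.exp (1 / 8 * √(Real.log t)) *
        (1 + Real.log (1 / (t * (1 - (q : ℝ))))))⌉₊ := by
    apply Nat.ceil_le_ceil
    apply Real.exp_le_exp.2
    exact le_mul_of_one_le_right (Real.exp_pos _).le (by linarith)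
  exact_mod_cast h1

theorem lower_log (A : ℝ) : ∃ (K : ℝ) (n₀ : ℕ), ∀ (q : I) (n : ℕ), n₀ ≤ n →
    1 - (q : ℝ) ≤ Real.exp (-(K * Real.log (Real.log n) ^ 2)) →
    (⌈Real.exp (Real.log n ^ A)⌉₊ : ℕ∞) ≤ T q n := by
  set B : ℝ := |A| + 1 with hB
  have hB1 : 1 ≤ B := by have := abs_nonneg A; linarith
  have hAB : A ≤ B := by have := le_abs_self A; linarith
  set K : ℝ := (8 * B) ^ 2 with hK
  have hK64 : 64 ≤ K := by nlinarith
  have hlog : Tendsto (fun n : ℕ => Real.log (n : ℝ)) atTop atTop :=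
    Real.tendsto_log_atTop.comp tendsto_natCast_atTop_atTop
  have hlog2 : Tendsto (fun n : ℕ => Real.log (Real.log (n : ℝ))) atTop atTop :=
    Real.tendsto_log_atTop.comp hlog
  have h2 : ∀ᶠ x : ℝ in atTop, K * Real.log x ^ 2 ≤ x := by
    have h3 := (Real.isLittleO_pow_log_id_atTop (n := 2)).bound
      (show (0 : ℝ) < 1 / K by positivity)
    filter_upwards [h3, eventually_ge_atTop (0 : ℝ)] with x h4 h5
    rw [Real.norm_of_nonneg (by positivity), id, Real.norm_of_nonneg h5] at h4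
    have := mul_le_mul_of_nonneg_left h4 (show (0 : ℝ) ≤ K by positivity)
    rwa [← mul_assoc, mul_one_div_cancel (by positivity), one_mul] at this
  obtain ⟨n0, hn0⟩ := Filter.eventually_atTop.1 ((hlog.eventually h2).and
    ((hlog2.eventually_ge_atTop 3).and (hlog.eventually_ge_atTop 1)))
  refine ⟨K, max n0 1, fun q n hn hq => ?_⟩
  obtain ⟨g1, g2, g3⟩ := hn0 n ((le_max_left _ _).trans hn)
  have hn1 : (0 : ℝ) < n := by exact_mod_cast (le_max_right _ _).trans hn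
  set l := Real.log (Real.log (n : ℝ)) with hl
  have hp : (0 : ℝ) ≤ 1 - q := by linarith [q.2.2]
  have key := lower_simple q n (Real.exp (K * l ^ 2)) (Real.exp_le_exp.2 (by nlinarith)) (by
    rw [← Real.exp_log hn1]
    exact Real.exp_le_exp.2 g1) (by
    calc Real.exp (K * l ^ 2) * (1 - (q : ℝ))
        ≤ Real.exp (K * l ^ 2) * Real.exp (-(K * l ^ 2)) :=
          mul_le_mul_of_nonneg_left hq (Real.exp_pos _).le
      _ = 1 := by rw [← Real.exp_add, add_neg_cancel, Real.exp_zero])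
  refine le_trans ?_ key
  have e : √(Real.log (Real.exp (K * l ^ 2))) = 8 * B * l := by
    rw [Real.log_exp, hK, ← mul_pow, Real.sqrt_sq (by positivity)]
  have hle : Real.log n ^ A ≤ Real.exp (1 / 8 * √(Real.log (Real.exp (K * l ^ 2)))) := by
    rw [e]
    calc Real.log n ^ A ≤ Real.log n ^ B := Real.rpow_le_rpow_of_exponent_le g3 hAB
      _ = Real.exp (l * B) := by rw [Real.rpow_def_of_pos (by linarith), hl]
      _ = _ := by congr 1; ring
  have h6 : ⌈Real.exp (Real.log n ^ A)⌉₊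
      ≤ ⌈Real.exp (Real.exp (1 / 8 * √(Real.log (Real.exp (K * l ^ 2)))))⌉₊ :=
    Nat.ceil_le_ceil (Real.exp_le_exp.2 hle)
  exact_mod_cast h6

end Vale.Agent.P321.H79.Deck
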