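import Vale.Agent.P321.H79.Deck

/-!
P321, deletion probability near one: the recursion on words.
-/

namespace Vale.Agent.P321.H79.Deck

open scoped unitInterval

/-- the algebra of signed laws on binary strings -/
abbrev Al := MonoidAlgebra ℝ (FreeMonoid Bool)

/-- the `l1` norm as a group norm -/
noncomputable def l1Norm : AddGroupNorm Al where
  toFun := MA.l1
  map_zero' := MA.l1_zero
  add_le' := MA.l1_add
  neg' := MA.l1_neg
  eq_zero_of_map_eq_zero' x hx := by
    apply MA.ext_ev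
    intro g
    have h1 : ∀ w ∈ x.coeff.support, |x.coeff w| = 0 :=
      (Finset.sum_eq_zero_iff_of_nonneg fun _ _ => abs_nonneg _).1 hx
    rw [MA.ev_zero, MA.ev_def]
    refine Finset.sum_eq_zero fun w hw => ?_
    have := abs_eq_zero.1 (h1 w hw)
    simp [this]

noncomputable scoped instance instNACG : NormedAddCommGroup Al := l1Norm.toNormedAddCommGroup

noncomputable scoped instance instNR : NormedRing Al :=
  { instNACG, (inferInstance : Ring Al) with
    norm_mul_le := MA.l1_mul }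

noncomputable scoped instance instNA : NormedAlgebra ℝ Al where
  norm_smul_le r x := (MA.l1_smul r x).le

theorem norm_def (x : Al) : ‖x‖ = MA.l1 x := rfl

/-- close words need many traces -/
theorem lower_of_close (q : I) {x y : List Bool} (hne : x ≠ y) (hlen : x.length = y.length) {n : ℕ}
    (hn : x.length ≤ n) {m : ℕ} (hm : ∃ est : Estimator n, Reconstructs q n m est) :
    1 ≤ 3 * (m : ℝ) * ‖W q y - W q x‖ := by
  obtain ⟨est, hest⟩ := hm
  set pad : List Bool := List.replicate (n - x.length) false with hpad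
  have hu : (x ++ pad).length = n := by
    rw [List.length_append, hpad, List.length_replicate]; omega
  have hv : (y ++ pad).length = n := by
    rw [List.length_append, hpad, List.length_replicate, ← hlen]; omega
  have hne' : x ++ pad ≠ y ++ pad := fun e => hne (List.append_cancel_right e)
  have key := lower_bound q n m est hest (fun i => (x ++ pad).get (i.cast hu.symm))
    (fun i => (y ++ pad).get (i.cast hv.symm)) (by
      intro e
      apply hne'
      refine List.ext_get (by rw [hu, hv]) fun i h1 h2 => ?_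
      have := congrFun e ⟨i, by rw [← hu]; exact h1⟩
      simpa using this)
  have e1 : List.ofFn (fun i : Fin n => (x ++ pad).get (i.cast hu.symm)) = x ++ pad := by
    refine List.ext_get (by rw [List.length_ofFn, hu]) fun i h1 h2 => ?_
    simp
  have e2 : List.ofFn (fun i : Fin n => (y ++ pad).get (i.cast hv.symm)) = y ++ pad := by
    refine List.ext_get (by rw [List.length_ofFn, hv]) fun i h1 h2 => ?_
    simp
  rw [e1, e2, W_append, W_append, ← sub_mul] at key
  have d1 : P321.l1 ((W q y - W q x) * W q pad) ≤ ‖W q y - W q x‖ :=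
    MA.l1_mul_prob_right (W_prob q.2.1 q.2.2 pad)
  exact key.trans (mul_le_mul_of_nonneg_left d1 (by positivity))

theorem norm_W {q : ℝ} (h0 : 0 ≤ q) (h1 : q ≤ 1) (u : List Bool) : ‖W q u‖ ≤ 1 :=
  (W_prob h0 h1 u).2.le

theorem norm_W_pow {q : ℝ} (h0 : 0 ≤ q) (h1 : q ≤ 1) (u : List Bool) (n : ℕ) :
    ‖W q u ^ n‖ ≤ 1 :=
  ((W_prob h0 h1 u).pow n).2.le

theorem norm_single (w : FreeMonoid Bool) : ‖(MonoidAlgebra.single w 1 : Al)‖ = 1 := by
  rw [norm_def, MA.l1_single, abs_one]

theorem norm_one' : ‖(1 : Al)‖ = 1 := MA.l1_one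

theorem letter_sub_one {q : ℝ} (h1 : q ≤ 1) (b : Bool) : ‖letter q b - 1‖ ≤ 2 * (1 - q) := by
  have e : letter q b - 1 = (1 - q) • (MonoidAlgebra.single (FreeMonoid.of b) 1 - (1 : Al)) := by
    rw [letter]; module
  have h2 := norm_sub_le (MonoidAlgebra.single (FreeMonoid.of b) 1 : Al) 1
  rw [norm_single, norm_one'] at h2
  rw [e]
  refine (norm_smul_le _ _).trans ?_
  rw [Real.norm_of_nonneg (by linarith)]
  nlinarith

theorem W_sub_one {q : ℝ} (h0 : 0 ≤ q) (h1 : q ≤ 1) (u : List Bool) :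
    ‖W q u - 1‖ ≤ 2 * (1 - q) * u.length := by
  induction u with
  | nil => rw [W_nil, sub_self, norm_zero]; simp
  | cons b u ih =>
    have e : W q (b :: u) - 1 = (letter q b - 1) * W q u + (W q u - 1) := by
      rw [W_cons]; noncomm_ring
    have h2 : ‖(letter q b - 1) * W q u‖ ≤ 2 * (1 - q) :=
      ((norm_mul_le _ _).trans (mul_le_of_le_one_right (norm_nonneg _) (norm_W h0 h1 u))).trans
        (letter_sub_one h1 b)
    rw [e, List.length_cons]
    push_cast
    have := norm_add_le ((letter q b - 1) * W q u) (W q u - 1)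
    linarith

theorem wd_eq_pr (V Z : Al) (l : List Bool) : MA.wd V Z l = pr V Z l := by
  induction l with
  | nil => rfl
  | cons b l ih => rw [MA.wd_cons, pr_cons, ih]

/-! ### scales -/

/-- exponent of the length -/
def aa : ℕ → ℕ
  | 0 => 0
  | i + 1 => aa i + (3 * i + 6)

/-- exponent of the constant -/
def kk (i : ℕ) : ℕ := aa i + (3 * i + 8)

theorem aa_bound (i : ℕ) : 2 * aa i = 3 * i * i + 9 * i := by
  induction i with
  | zero => rfl
  | succ i ih => rw [aa, mul_add, ih]; ring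

theorem kk_bound (i : ℕ) : kk i + 1 ≤ 2 * (i + 2) ^ 2 + 1 := by
  have h := aa_bound i
  unfold kk
  nlinarith

theorem card_bound (i : ℕ) :
    ((2 ^ (3 * i + 6)) ^ (2 ^ i) + 1) ^ (2 ^ i) < 2 ^ (2 ^ (3 * i + 6)) := by
  set D := 2 ^ i with hD
  have hi : i < D := Nat.lt_two_pow_self
  have hD1 : 1 ≤ D := Nat.one_le_two_pow
  have e : 2 ^ (3 * i + 6) = 64 * D ^ 3 := by
    rw [hD, pow_add, ← pow_mul]
    ring
  have h1 : (2 ^ (3 * i + 6)) ^ D + 1 ≤ 2 ^ ((3 * i + 6) * D + 1) := by
    rw [← pow_mul, pow_succ]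
    have : 1 ≤ 2 ^ ((3 * i + 6) * D) := Nat.one_le_two_pow
    omega
  calc ((2 ^ (3 * i + 6)) ^ D + 1) ^ D ≤ (2 ^ ((3 * i + 6) * D + 1)) ^ D :=
        Nat.pow_le_pow_left h1 _
    _ = 2 ^ (((3 * i + 6) * D + 1) * D) := (pow_mul _ _ _).symm
    _ < 2 ^ (2 ^ (3 * i + 6)) := by
        apply Nat.pow_lt_pow_right (by norm_num)
        rw [e]
        have h2 : (3 * i + 6) * D + 1 ≤ 10 * D * D := by nlinarith
        calc ((3 * i + 6) * D + 1) * D ≤ 10 * D * D * D := Nat.mul_le_mul_right _ h2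
          _ < 64 * D ^ 3 := by
            have : 1 ≤ D ^ 3 := Nat.one_le_pow _ _ hD1
            nlinarith

/-- **Close words.** -/
theorem level (i : ℕ) : ∃ u v : List Bool, u ≠ v ∧ u.length = v.length ∧ u.length = 2 ^ aa i ∧
    ∀ q : I, ‖W q v - W q u‖ ≤ (2 ^ kk i * (1 - (q : ℝ))) ^ (2 ^ i) := by
  induction i with
  | zero =>
    refine ⟨[false], [true], by decide, rfl, rfl, fun q => ?_⟩
    have e : W q [true] - W q [false] = (letter q true - 1) - (letter q false - 1) := by
      rw [W_cons, W_cons, W_nil, mul_one, mul_one]; abel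
    have h1 := letter_sub_one q.2.2 true
    have h2 := letter_sub_one q.2.2 false
    have h3 := norm_sub_le (letter (q : ℝ) true - 1) (letter (q : ℝ) false - 1)
    have h4 : (0 : ℝ) ≤ 1 - q := by linarith [q.2.2]
    rw [e, pow_zero, pow_one]
    have e2 : (2 : ℝ) ^ kk 0 = 256 := by norm_num [kk, aa]
    rw [e2]
    linarith
  | succ i ih =>
    obtain ⟨u, v, hne, hlen, hl, hc⟩ := ih
    set N : ℕ := 2 ^ (3 * i + 6) with hN
    have hN1 : 1 ≤ N := Nat.one_le_two_pow
    obtain ⟨l, l', hll, h1, h2, h3⟩ := exists_pair hN1 (card_bound i)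
    refine ⟨MA.sub u v l, MA.sub u v l', fun e => hll (MA.sub_inj u v hlen hne l l'
      (h1.trans h2.symm) e), ?_, ?_, fun q => ?_⟩
    · rw [MA.sub_length u v hlen, MA.sub_length u v hlen, h1, h2]
    · rw [MA.sub_length u v hlen, h1, hl, aa, pow_add, mul_comm]
    · have h0 : (0 : ℝ) ≤ q := q.2.1
      have h0' : (q : ℝ) ≤ 1 := q.2.2
      have hp : (0 : ℝ) ≤ 1 - q := by linarith
      have hW1 := W_sub_one h0 h0' u
      have hpr : ∀ l, ‖pr (W q u) (W q v) l‖ ≤ 1 := by
        intro l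
        rw [← wd_eq_pr, ← MA.sub_W]
        exact norm_W h0 h0' _
      have key := pr_diff (norm_W_pow h0 h0' u) hpr hW1 (D := 2 ^ i) h2 h1
        (fun j hj => (h3 j hj).symm)
      rw [MA.sub_W, MA.sub_W, wd_eq_pr, wd_eq_pr]
      set x : ℝ := 2 ^ kk i * (1 - (q : ℝ)) with hx
      have hx0 : 0 ≤ x := by positivity
      have hcq := hc q
      have hNr : (N : ℝ) = 2 ^ (3 * i + 6) := by rw [hN]; push_cast; ring
      have ex : (N : ℝ) * (2 * (2 * (1 - (q : ℝ)) * u.length)) = x := by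
        rw [hx, hl, hNr, kk]
        push_cast
        rw [pow_add 2 (aa i), show 3 * i + 8 = (3 * i + 6) + 2 by ring, pow_add 2 (3 * i + 6) 2]
        ring
      have hNr1 : (1 : ℝ) ≤ N := by exact_mod_cast hN1
      have b1 : ‖W q v - W q u‖ ^ 2 ≤ x ^ (2 ^ (i + 1)) := by
        rw [pow_succ 2 i, pow_mul]
        exact pow_le_pow_left₀ (norm_nonneg _) hcq 2
      have b2 : (N : ℝ) ^ (2 ^ i) * (2 * N) * (2 * (2 * (1 - (q : ℝ)) * u.length)) ^ (2 ^ i)
          * ‖W q v - W q u‖ ≤ 2 * N * x ^ (2 ^ (i + 1)) := by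
        have e1 : (N : ℝ) ^ (2 ^ i) * (2 * N) * (2 * (2 * (1 - (q : ℝ)) * u.length)) ^ (2 ^ i)
            = 2 * N * x ^ (2 ^ i) := by
          have g : ∀ y : ℝ, (N : ℝ) ^ (2 ^ i) * (2 * N) * y ^ (2 ^ i)
              = 2 * N * ((N : ℝ) * y) ^ (2 ^ i) := fun y => by rw [mul_pow]; ring
          rw [g, ex]
        rw [e1, pow_succ 2 i, mul_two, pow_add, ← mul_assoc]
        exact mul_le_mul_of_nonneg_left hcq (by positivity)
      have b3 : 2 * (N : ℝ) ^ 2 * ‖W q v - W q u‖ ^ 2 ≤ 2 * N ^ 2 * x ^ (2 ^ (i + 1)) :=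
        mul_le_mul_of_nonneg_left b1 (by positivity)
      have ek : (2 : ℝ) ^ kk (i + 1) * (1 - (q : ℝ)) = 8 * N * x := by
        rw [hx, hNr, kk, kk, aa, show aa i + (3 * i + 6) + (3 * (i + 1) + 8) =
          3 + (3 * i + 6) + (aa i + (3 * i + 8)) by ring, pow_add, pow_add 2 3]
        ring
      rw [ek]
      have hX : (0 : ℝ) ≤ x ^ (2 ^ (i + 1)) := by positivity
      calc ‖pr (W q u) (W q v) l' - pr (W q u) (W q v) l‖
          ≤ 2 * N ^ 2 * x ^ (2 ^ (i + 1)) + 2 * N * x ^ (2 ^ (i + 1)) := by linarith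
        _ ≤ (8 * N) ^ 2 * x ^ (2 ^ (i + 1)) := by
            rw [← add_mul]
            apply mul_le_mul_of_nonneg_right _ hX
            nlinarith
        _ ≤ (8 * N) ^ (2 ^ (i + 1)) * x ^ (2 ^ (i + 1)) := by
            apply mul_le_mul_of_nonneg_right _ hX
            apply pow_le_pow_right₀ (by linarith)
            rw [pow_succ]
            have : 1 ≤ 2 ^ i := Nat.one_le_two_pow
            omega
        _ = (8 * N * x) ^ (2 ^ (i + 1)) := (mul_pow _ _ _).symm

end Vale.Agent.P321.H79.Deck
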