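import Vale.Agent.P321.H778.GapF

/-! # The gap at deletion probability `q`, directly (small `q`) -/

namespace Vale.Agent.P321.H79

open Complex Finset Vale.Agent.P321.UB Vale.Agent.P321.R2.H613 Vale.Agent.P321.H778

/-- The weights of the region are in the disc of retention `1 - q`, with a margin. -/
theorem margin {A m c q : ℝ} {z : ℂ} (h : Wt A m c z) (hA : 0 ≤ A) (hm : 0 < m) (hc : 0 ≤ c)
    (hcm : 64 * c * q ≤ m) (hq : 0 < q) (hqA : 64 * A ^ 2 * q ≤ 1) (hq64 : 64 * q ≤ 1) :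
    (1 - ‖z‖) / 4 ≤ 1 - ‖(z - 1 + ((1 - q : ℝ) : ℂ)) / ((1 - q : ℝ) : ℂ)‖ := by
  obtain ⟨K, θ, hK, hθ, rfl⟩ := h
  set u := Real.exp (-K) with hu
  have hu0 : 0 < u := Real.exp_pos _
  have hu1 : u < 1 := Real.exp_lt_one_iff.2 (by linarith)
  have hnz : ‖cexp (-((K : ℂ) + θ * I))‖ = u := by
    rw [Complex.norm_exp]
    simp [hu]
  have huK : u * K ≤ 1 - u := by
    have h1 := Real.add_one_le_exp K
    have h2 : u * Real.exp K = 1 := by rw [hu, ← Real.exp_add]; simp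
    nlinarith
  have hz : cexp (-((K : ℂ) + θ * I)) = (u : ℂ) * cexp ((-θ : ℝ) * I) := by
    rw [hu, Complex.ofReal_exp, ← Complex.exp_add]
    congr 1
    push_cast
    ring
  have hsq : ‖cexp (-((K : ℂ) + θ * I)) - q‖ ^ 2 = u ^ 2 - 2 * q * u * Real.cos θ + q ^ 2 := by
    rw [hz, Complex.sq_norm, Complex.normSq_apply]
    simp only [sub_re, mul_re, ofReal_re, Complex.exp_ofReal_mul_I_re, ofReal_im,
      Complex.exp_ofReal_mul_I_im, zero_mul, sub_zero, sub_im, mul_im, add_zero,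
      Real.cos_neg, Real.sin_neg]
    have := Real.sin_sq_add_cos_sq θ
    linear_combination u ^ 2 * this
  have hkey : 2 * q * (1 - u * Real.cos θ) ≤ (1 - u) / 2 := by
    have e1 : 1 - u * Real.cos θ = (1 - u) + u * (1 - Real.cos θ) := by ring
    have hcos : 2 * q * (u * (1 - Real.cos θ)) ≤ (1 - u) / 8 := by
      rcases le_total K 1 with hK1 | hK1
      · have h2 := Real.one_sub_sq_div_two_le_cos (x := θ)
        have hs0 : 0 ≤ c * K / m := by positivity
        have h3 : θ ^ 2 ≤ 2 * A ^ 2 * K + 2 * (c * K / m) := by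
          have h5 : θ ^ 2 ≤ (A * K + Real.sqrt (c * K / m)) ^ 2 := by
            rw [← sq_abs]
            exact pow_le_pow_left₀ (abs_nonneg _) hθ 2
          have h6 := Real.sq_sqrt hs0
          have h7 := sq_nonneg (A * K - Real.sqrt (c * K / m))
          have h8 : A ^ 2 * K ^ 2 ≤ A ^ 2 * K := by
            have : K ^ 2 ≤ K := by nlinarith
            exact mul_le_mul_of_nonneg_left this (by positivity)
          nlinarith
        have h9 : q * θ ^ 2 ≤ K / 16 := by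
          have g1 : q * (2 * A ^ 2 * K) ≤ K / 32 := by
            have : 64 * A ^ 2 * q * K ≤ 1 * K := mul_le_mul_of_nonneg_right hqA hK.le
            nlinarith
          have g2 : q * (2 * (c * K / m)) ≤ K / 32 := by
            have g3 : q * (2 * (c * K / m)) = (64 * c * q) * K / (32 * m) := by
              field_simp
              ring
            rw [g3, div_le_div_iff₀ (by positivity) (by norm_num)]
            have := mul_le_mul_of_nonneg_right hcm hK.le
            nlinarith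
          calc q * θ ^ 2 ≤ q * (2 * A ^ 2 * K + 2 * (c * K / m)) :=
                mul_le_mul_of_nonneg_left h3 hq.le
            _ = q * (2 * A ^ 2 * K) + q * (2 * (c * K / m)) := by ring
            _ ≤ K / 16 := by linarith
        calc 2 * q * (u * (1 - Real.cos θ)) ≤ 2 * q * (u * (θ ^ 2 / 2)) := by
              apply mul_le_mul_of_nonneg_left _ (by positivity)
              apply mul_le_mul_of_nonneg_left _ hu0.le
              linarith
          _ = u * (q * θ ^ 2) := by ring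
          _ ≤ u * (K / 16) := mul_le_mul_of_nonneg_left h9 hu0.le
          _ ≤ (1 - u) / 8 := by linarith
      · have h2 := Real.neg_one_le_cos θ
        have h3 : u ≤ 1 - u := by nlinarith
        calc 2 * q * (u * (1 - Real.cos θ)) ≤ 2 * q * (u * 2) := by
              apply mul_le_mul_of_nonneg_left _ (by positivity)
              apply mul_le_mul_of_nonneg_left _ hu0.le
              linarith
          _ = 64 * q * (u / 16) := by ring
          _ ≤ 1 * (u / 16) := mul_le_mul_of_nonneg_right hq64 (by positivity)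
          _ ≤ (1 - u) / 8 := by linarith
    have h4 : 2 * q * (1 - u) ≤ (1 - u) / 8 := by
      have : 0 < 1 - u := by linarith
      nlinarith
    rw [e1, mul_add]
    linarith
  have hp : 0 < 1 - q := by linarith
  rw [hnz]
  have e0 : cexp (-((K : ℂ) + θ * I)) - 1 + ((1 - q : ℝ) : ℂ) =
      cexp (-((K : ℂ) + θ * I)) - q := by push_cast; ring
  rw [e0, norm_div, Complex.norm_real, Real.norm_of_nonneg hp.le]
  set w := ‖cexp (-((K : ℂ) + θ * I)) - q‖ / (1 - q) with hw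
  have hw0 : 0 ≤ w := by positivity
  have hw2 : w ^ 2 ≤ 1 - (1 - u) / 2 := by
    rw [hw, div_pow, hsq, div_le_iff₀ (by positivity)]
    have h5 : (1 - q) ^ 2 ≤ 1 := by nlinarith
    have h6 : u ^ 2 - 2 * q * u * Real.cos θ + q ^ 2 =
        (1 - q) ^ 2 - (1 - u ^ 2) + 2 * q * (1 - u * Real.cos θ) := by ring
    rw [h6]
    have h7 : (1 - u) / 2 * (1 - q) ^ 2 ≤ (1 - u) / 2 * 1 :=
      mul_le_mul_of_nonneg_left h5 (by linarith)
    nlinarith
  nlinarith [sq_nonneg (w - 1)]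

/-- The size of a monomial on the trace side. -/
theorem OP_le {p : ℝ} (hp : 0 < p) {W : ℂ → Prop}
    (hW : ∀ z, W z → ‖z‖ < 1 ∧ (1 - ‖z‖) / 4 ≤ 1 - ‖(z - 1 + (p : ℂ)) / (p : ℂ)‖)
    {Z : List Node} (h : ∀ v ∈ Z, W v.1) (u : List Bool) : ‖OP p Z u‖ ≤ (4 / p) ^ Z.length * nu Z := by
  induction Z generalizing u with
  | nil => simp [OP, nu]
  | cons v Z ih =>
    obtain ⟨h1, h2⟩ := hW _ (h v List.mem_cons_self)
    have h3 : 0 < 1 - ‖v.1‖ := by linarith
    have h4 : ‖(v.1 - 1 + (p : ℂ)) / (p : ℂ)‖ < 1 := by linarith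
    have h5 := ndP_norm_le hp h4 v.2 (n := u.length)
      (fun y _ => ih (fun v hv => h v (List.mem_cons_of_mem _ hv)) y) u le_rfl
    have hZ : ∀ w ∈ Z, ‖w.1‖ < 1 := fun w hw => (hW _ (h w (List.mem_cons_of_mem _ hw))).1
    have p1 := nu_pos hZ
    refine h5.trans ?_
    change _ ≤ (4 / p) ^ (Z.length + 1) * (nu Z * (1 / (1 - ‖v.1‖)))
    have h6 : 1 / (p * (1 - ‖(v.1 - 1 + (p : ℂ)) / (p : ℂ)‖)) ≤ 4 / p * (1 / (1 - ‖v.1‖)) := by
      have e : 4 / p * (1 / (1 - ‖v.1‖)) = 1 / (p * ((1 - ‖v.1‖) / 4)) := by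
        field_simp
      rw [e]
      apply one_div_le_one_div_of_le (by positivity)
      exact mul_le_mul_of_nonneg_left h2 hp.le
    calc (4 / p) ^ Z.length * nu Z * (1 / (p * (1 - ‖(v.1 - 1 + (p : ℂ)) / (p : ℂ)‖)))
        ≤ (4 / p) ^ Z.length * nu Z * (4 / p * (1 / (1 - ‖v.1‖))) :=
          mul_le_mul_of_nonneg_left h6 (by positivity)
      _ = _ := by rw [pow_succ]; ring

theorem evP_le {p : ℝ} (hp : 0 < p) (hp4 : p ≤ 4) {W : ℂ → Prop}
    (hW : ∀ z, W z → ‖z‖ < 1 ∧ (1 - ‖z‖) / 4 ≤ 1 - ‖(z - 1 + (p : ℂ)) / (p : ℂ)‖)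
    {k : ℕ} {L : Comb} (h : Adm W k L) (u : List Bool) : ‖evP p L u‖ ≤ (4 / p) ^ k * nuL L := by
  have h41 : 1 ≤ 4 / p := by rw [le_div_iff₀ hp]; linarith
  induction L with
  | nil => simp [evP, nuL]
  | cons a L ih =>
    have h1 := ih (fun a ha => h a (List.mem_cons_of_mem _ ha))
    obtain ⟨j1, j2⟩ := h a List.mem_cons_self
    have h2 := OP_le hp hW j2 u
    have p1 : 0 < nu a.2 := nu_pos (fun v hv => (hW _ (j2 v hv)).1)
    have h3 : ‖OP p a.2 u‖ ≤ (4 / p) ^ k * nu a.2 :=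
      h2.trans (mul_le_mul_of_nonneg_right (pow_le_pow_right₀ h41 j1) p1.le)
    change ‖a.1 * OP p a.2 u + 1 * evP p L u‖ ≤ (4 / p) ^ k * (‖a.1‖ * nu a.2 + nuL L)
    rw [one_mul]
    calc ‖a.1 * OP p a.2 u + evP p L u‖ ≤ ‖a.1 * OP p a.2 u‖ + ‖evP p L u‖ := norm_add_le _ _
      _ ≤ ‖a.1‖ * ((4 / p) ^ k * nu a.2) + (4 / p) ^ k * nuL L := by
        rw [norm_mul]
        gcongr
      _ = _ := by ring

/-- A class whose weights are in the disc with a margin consists of tests. -/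
theorem isTest_cls {p : ℝ} (hp : 0 < p) (hp4 : p ≤ 4) {W : ℂ → Prop}
    (hW : ∀ z, W z → ‖z‖ < 1 ∧ (1 - ‖z‖) / 4 ≤ 1 - ‖(z - 1 + (p : ℂ)) / (p : ℂ)‖)
    {k : ℕ} {B : ℝ} {τ : List Bool → ℂ} (h : Cls W k B τ) (n : ℕ) :
    IsTest n p ((4 / p) ^ k * B) τ := by
  obtain ⟨L, h1, h2, h3⟩ := h
  refine ⟨evP p L, fun u _ => ?_, fun y _ => ?_⟩
  · refine (evP_le hp hp4 hW h1 u).trans ?_
    exact mul_le_mul_of_nonneg_left h2 (by positivity)
  · rw [FE_evP hp, h3]

/-- The gap at deletion probability `q` from the last state of the iteration, with weights in the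
disc of retention `1 - q`. -/
theorem gap_direct {A m β : ℝ} {x x' : List Bool} {i1 : ℕ} (hl : x.length = x'.length)
    (hi : i1 ≤ x.length) (heq : ∀ τ, ∀ i < i1, sq x τ i = sq x' τ i)
    {c κ D : ℝ} {k : ℕ} (hA : 0 ≤ A) (hm : 0 < m) (hc : 0 ≤ c) (hβ : 0 ≤ β) (hκ : 0 < κ)
    (hκn : 2 * (1 + β) * κ * ((x.length : ℝ) + 1) ≤ 1)
    {q W : ℝ} (hq : 0 < q) (hcm : 64 * c * q ≤ m) (hqA : 64 * A ^ 2 * q ≤ 1) (hq64 : 64 * q ≤ 1)
    (hW : D + 3 * k + Real.log (20 * ((x.length : ℝ) + 1)) < W)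
    (h : GoodF A m β (fun _ => 1) x x' i1 c k κ D) :
    ∃ Φ : List Bool → ℂ, (∀ u, u.length ≤ x.length → ‖Φ u‖ ≤ 1) ∧
      Real.exp (-W) ≤ ‖FE (1 - q) Φ x - FE (1 - q) Φ x'‖ := by
  by_contra hcon
  push Not at hcon
  obtain ⟨τ, -, hτ, s, hsre, hsim, hNN⟩ := h
  rw [mul_one] at hNN
  obtain ⟨p, hpq⟩ : ∃ p : ℝ, p = 1 - q := ⟨_, rfl⟩
  rw [← hpq] at hcon
  have hp : 0 < p := by linarith
  have hp1 : p ≤ 1 := by linarith
  have hp2' : 1 / 2 ≤ p := by linarith
  set n := x.length with hndef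
  have hn0 : (0 : ℝ) ≤ n := Nat.cast_nonneg n
  have hp2 : 0 ≤ 1 - p := by linarith
  have hWt : ∀ z, Wt A m c z → ‖z‖ < 1 ∧
      (1 - ‖z‖) / 4 ≤ 1 - ‖(z - 1 + (p : ℂ)) / (p : ℂ)‖ := fun z hz =>
    ⟨hz.norm_lt, by rw [hpq]; exact margin hz hA hm hc hcm hq hqA hq64⟩
  -- the hypothesis on tests
  have hT0 : ∀ (B' : ℝ) (Ψ : List Bool → ℂ), 0 ≤ B' → (∀ u, u.length ≤ n → ‖Ψ u‖ ≤ B') →
      ‖FE p Ψ x - FE p Ψ x'‖ ≤ B' * Real.exp (-W) := by
    intro B' Ψ hB' hΨ
    rcases eq_or_lt_of_le hB' with h0 | h0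
    · have e1 := FE_norm_le hp.le hp1 Ψ x (B := 0) (fun u hu => by rw [h0]; exact hΨ u hu)
      have e2 := FE_norm_le hp.le hp1 Ψ x' (B := 0) (fun u hu => by
        rw [h0]; exact hΨ u (by rw [hl]; exact hu))
      rw [← h0, zero_mul, norm_le_zero_iff.1 e1, norm_le_zero_iff.1 e2]
      simp
    · have e1 := hcon (fun u => ((1 / B' : ℝ) : ℂ) * Ψ u + 0 * (fun _ => (0 : ℂ)) u) (fun u hu => by
        beta_reduce
        rw [mul_zero, add_zero, norm_mul, Complex.norm_real, Real.norm_of_nonneg (by positivity)]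
        have := mul_le_mul_of_nonneg_left (hΨ u hu) (by positivity : (0 : ℝ) ≤ 1 / B')
        refine this.trans (le_of_eq ?_)
        field_simp)
      rw [FE_lin, FE_lin, zero_mul, zero_mul, add_zero, add_zero, ← mul_sub, norm_mul,
        Complex.norm_real, Real.norm_of_nonneg (by positivity), one_div, ← div_eq_inv_mul,
        div_lt_iff₀ h0] at e1
      linarith
  have hT : ∀ (B' : ℝ) (σ : List Bool → ℂ), 0 ≤ B' → IsTest (n + 1) p B' σ →
      ‖σ (false :: x) - σ (false :: x')‖ ≤ B' * Real.exp (-W) := by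
    intro B' σ hB' hσ
    obtain ⟨Φ, hΦ, hFE⟩ := hσ
    have e1 : ∀ y : List Bool, y.length ≤ n → σ (false :: y) =
        FE p (fun u => (1 - (p : ℂ)) * Φ u + (p : ℂ) * (fun v => Φ (false :: v)) u) y := by
      intro y hy
      rw [FE_lin, ← hFE (false :: y) (by simp; omega), FE_cons]
    rw [e1 x le_rfl, e1 x' (by rw [← hl])]
    refine hT0 B' _ hB' (fun u hu => ?_)
    have a1 := hΦ u (by omega)
    have a2 := hΦ (false :: u) (by simp; omega)
    calc ‖(1 - (p : ℂ)) * Φ u + (p : ℂ) * Φ (false :: u)‖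
        ≤ ‖(1 - (p : ℂ)) * Φ u‖ + ‖(p : ℂ) * Φ (false :: u)‖ := norm_add_le _ _
      _ = (1 - p) * ‖Φ u‖ + p * ‖Φ (false :: u)‖ := by
          rw [norm_mul, norm_mul, norm_one_sub_ofReal hp1, norm_ofReal_nonneg hp.le]
      _ ≤ (1 - p) * B' + p * B' := by gcongr
      _ = B' := by ring
  -- the top weight
  set z : ℂ := cexp s with hz
  set R : ℝ := 2 * (1 + β) * κ with hR
  have hR0 : 0 ≤ R := by positivity
  have hRn : R * ((n : ℝ) + 1) ≤ 1 := hκn
  have hR1 : R ≤ 1 := by nlinarith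
  have hs : ‖s‖ ≤ (1 + β) * κ := by
    have h1 := Complex.norm_le_abs_re_add_abs_im s
    rw [hsre, abs_of_pos hκ] at h1
    linarith
  have hs1 : ‖s‖ ≤ 1 := by linarith
  have hz1 : ‖z - 1‖ ≤ R := by
    have h1 := Complex.norm_exp_sub_one_le hs1
    rw [hR]
    linarith
  have hpn : ‖(p : ℂ)‖ = p := norm_ofReal_nonneg hp.le
  have hqz : ‖(z - 1 + p) / p‖ ≤ 1 + 2 * R := by
    rw [norm_div, hpn, div_le_iff₀ hp]
    calc ‖z - 1 + p‖ ≤ ‖z - 1‖ + ‖(p : ℂ)‖ := norm_add_le _ _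
      _ ≤ R + p := by rw [hpn]; linarith
      _ ≤ (1 + 2 * R) * p := by nlinarith
  have hqn : ‖(z - 1 + p) / p‖ ^ (n + 1) ≤ 9 := by
    calc ‖(z - 1 + p) / p‖ ^ (n + 1) ≤ (1 + 2 * R) ^ (n + 1) :=
          pow_le_pow_left₀ (norm_nonneg _) hqz _
      _ ≤ (Real.exp (2 * R)) ^ (n + 1) := by
          refine pow_le_pow_left₀ (by positivity) ?_ _
          have := Real.add_one_le_exp (2 * R)
          linarith
      _ = Real.exp (2 * (R * ((n : ℝ) + 1))) := by
          rw [← Real.exp_nat_mul]; congr 1; push_cast; ring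
      _ ≤ Real.exp 2 := Real.exp_le_exp.2 (by linarith)
      _ ≤ 9 := by
          have e2 : Real.exp 2 = (Real.exp 1) ^ 2 := by
            rw [← Real.exp_nat_mul]; norm_num
          rw [e2]
          have h9 : (Real.exp 1) ^ 2 ≤ 3 ^ 2 :=
            pow_le_pow_left₀ (Real.exp_pos _).le (by linarith [Real.exp_one_lt_d9]) 2
          linarith
  have hcls := isTest_cls hp (by linarith) hWt hτ (n + 1)
  rw [mul_one] at hcls
  have htest := IsTest.sz_near (z := z) hp (by positivity) (by norm_num : (1 : ℝ) ≤ 9) hqn hcls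
  have hmain0 := hT _ _ (by positivity) htest
  -- the lower bound
  have hlow : Real.exp (-D) ≤ ‖Sz z τ (false :: x) - Sz z τ (false :: x')‖ := by
    have f1 : Sz z τ (false :: x) = seqS z (sq x τ) (n + 1) := by
      have g1 : Sz z τ x = seqS z (sq x τ) n := by
        rw [← sq_full x (Sz z τ)]
        exact sq_Sz x z τ n le_rfl
      change z * Sz z τ x + τ x = z * seqS z (sq x τ) n + sq x τ n
      rw [g1, ← sq_full x τ]
    have f2 : Sz z τ (false :: x') = seqS z (sq x' τ) (n + 1) := by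
      have g1 : Sz z τ x' = seqS z (sq x' τ) n := by
        rw [← sq_full x' (Sz z τ), hl]
        exact sq_Sz x' z τ x'.length le_rfl
      change z * Sz z τ x' + τ x' = z * seqS z (sq x' τ) n + sq x' τ n
      rw [g1]
      congr 1
      rw [hl]
      exact (sq_full x' τ).symm
    rw [f1, f2, seqS_sub_eq hi s (heq τ), norm_mul]
    have hexp : 1 ≤ ‖cexp (s * ((n : ℂ) - i1))‖ := by
      rw [Complex.norm_exp]
      have hre : (s * ((n : ℂ) - i1)).re = κ * ((n : ℝ) - i1) := by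
        rw [Complex.mul_re]
        simp [hsre]
      rw [hre]
      have hi' : (i1 : ℝ) ≤ n := by exact_mod_cast hi
      exact Real.one_le_exp (mul_nonneg hκ.le (by linarith))
    calc Real.exp (-D) = 1 * Real.exp (-D) := (one_mul _).symm
      _ ≤ _ := mul_le_mul hexp hNN (Real.exp_pos _).le (by positivity)
  have hmain := hlow.trans hmain0
  -- the numerics
  have h8k : (4 / p) ^ k ≤ Real.exp (3 * k) := by
    have e1 : 4 / p ≤ Real.exp 3 := by
      have e2 : Real.exp 3 = (Real.exp 1) ^ 3 := by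
        rw [← Real.exp_nat_mul]; norm_num
      have h9 : (2.7 : ℝ) ^ 3 ≤ (Real.exp 1) ^ 3 :=
        pow_le_pow_left₀ (by norm_num) (by linarith [Real.exp_one_gt_d9]) 3
      have e3 : 4 / p ≤ 8 := by rw [div_le_iff₀ hp]; linarith
      rw [e2]
      refine e3.trans (le_trans (by norm_num) h9)
    calc (4 / p) ^ k ≤ (Real.exp 3) ^ k := by gcongr
      _ = Real.exp (3 * k) := by rw [← Real.exp_nat_mul]; congr 1; ring
  have hpos : 0 < 20 * ((n : ℝ) + 1) := by linarith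
  have hB : 9 * (((n + 1 : ℕ) : ℝ) * (4 / p) ^ k / p) ≤ 20 * ((n : ℝ) + 1) * Real.exp (3 * k) := by
    have e4 : 9 * (((n + 1 : ℕ) : ℝ) * (4 / p) ^ k / p) =
        (9 / p) * (((n : ℝ) + 1) * (4 / p) ^ k) := by push_cast; ring
    have e5 : 9 / p ≤ 20 := by rw [div_le_iff₀ hp]; linarith
    rw [e4]
    calc (9 / p) * (((n : ℝ) + 1) * (4 / p) ^ k) ≤ 20 * (((n : ℝ) + 1) * Real.exp (3 * k)) := by
          gcongr
      _ = _ := by ring
  have hfin : Real.exp (-D) < Real.exp (-D) := by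
    calc Real.exp (-D) ≤ 9 * (((n + 1 : ℕ) : ℝ) * (4 / p) ^ k / p) * Real.exp (-W) := hmain
      _ ≤ 20 * ((n : ℝ) + 1) * Real.exp (3 * k) * Real.exp (-W) := by gcongr
      _ = Real.exp (Real.log (20 * ((n : ℝ) + 1)) + 3 * k + -W) := by
          rw [Real.exp_add, Real.exp_add, Real.exp_log hpos]
      _ < Real.exp (-D) := Real.exp_lt_exp.2 (by linarith)
  exact lt_irrefl _ hfin

end Vale.Agent.P321.H79
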