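import Vale.Agent.P321.H79.Gap
import Vale.Agent.P321.H778.Two
import Vale.Agent.P321.R3.H101.Mono

/-! # Trace reconstruction at small deletion probability: the upper bound -/

namespace Vale.Agent.P321.H79

open Complex Finset Vale.Agent.P321.UB Vale.Agent.P321.R2.H613 Vale.Agent.P321.H778
open scoped unitInterval ENNReal

/-- from the gap to the number of traces -/
theorem num_T {W : ℝ} (hW : 0 ≤ W) {n : ℕ} (hn : 2 ≤ n) (hnW : Real.log n ≤ W) (hW1 : 1 / 2 ≤ W) :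
    (⌈(16 / (Real.exp (-W)) ^ 2) * ((n : ℝ) + 2)⌉₊ : ℕ) ≤ ⌊Real.exp (11 * W)⌋₊ := by
  have hnR : (2 : ℝ) ≤ n := by exact_mod_cast hn
  have hnpos : (0 : ℝ) < n := by linarith
  have hnexp : (n : ℝ) ≤ Real.exp W := by
    rw [← Real.log_le_iff_le_exp hnpos]; exact hnW
  have h2 : 16 / (Real.exp (-W)) ^ 2 = 16 * Real.exp (2 * W) := by
    rw [← Real.exp_nat_mul, div_eq_mul_inv, ← Real.exp_neg]
    congr 2; push_cast; ring
  rw [h2]
  have hE : (1 : ℝ) ≤ Real.exp (3 * W) := Real.one_le_exp (by linarith)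
  have h33 : (33 : ℝ) ≤ Real.exp (8 * W) := by
    have h4 : Real.exp 4 = (Real.exp 1) ^ 4 := by rw [← Real.exp_nat_mul]; norm_num
    have h9 : (2.7 : ℝ) ^ 4 ≤ (Real.exp 1) ^ 4 :=
      pow_le_pow_left₀ (by norm_num) (by linarith [Real.exp_one_gt_d9]) 4
    have h5 : Real.exp 4 ≤ Real.exp (8 * W) := Real.exp_le_exp.2 (by linarith)
    refine le_trans ?_ h5
    rw [h4]
    refine le_trans (by norm_num) h9
  have h1 : 16 * Real.exp (2 * W) * ((n : ℝ) + 2) + 1 ≤ Real.exp (11 * W) := by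
    have h3 : (n : ℝ) + 2 ≤ 2 * Real.exp W := by linarith
    have e1 : Real.exp (3 * W) = Real.exp (2 * W) * Real.exp W := by
      rw [← Real.exp_add]; congr 1; ring
    have e2 : Real.exp (11 * W) = Real.exp (8 * W) * Real.exp (3 * W) := by
      rw [← Real.exp_add]; congr 1; ring
    calc 16 * Real.exp (2 * W) * ((n : ℝ) + 2) + 1
        ≤ 16 * Real.exp (2 * W) * (2 * Real.exp W) + Real.exp (3 * W) := by gcongr
      _ = 33 * Real.exp (3 * W) := by rw [e1]; ring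
      _ ≤ Real.exp (8 * W) * Real.exp (3 * W) := by gcongr
      _ = _ := e2.symm
  apply Nat.le_floor
  have h4 := Nat.ceil_lt_add_one (a := 16 * Real.exp (2 * W) * ((n : ℝ) + 2)) (by positivity)
  linarith

/-- The bound at small deletion probability. -/
theorem T_small {α : ℝ} (hα : 2 < α) :
    ∃ M C : ℝ, 1 ≤ M ∧ 0 < C ∧ ∀ q : I, 0 < (q : ℝ) → ∀ ρ : ℝ, 0 ≤ ρ →
      M * (1 + ρ) ^ 4 * q ≤ 1 → ∀ n : ℕ, 2 ≤ n → Real.log n ≤ ρ * Real.log (1 / (q : ℝ)) →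
      T q n ≤ (⌊Real.exp (C * (1 + ρ) ^ α * Real.log (1 / (q : ℝ)))⌋₊ : ℕ∞) := by
  have h2 : (4 : ℝ) < (2 : ℝ) ^ α := by
    have h1 : (2 : ℝ) ^ (2 : ℝ) < (2 : ℝ) ^ α :=
      Real.rpow_lt_rpow_of_exponent_lt (by norm_num) hα
    have h3 : (2 : ℝ) ^ (2 : ℝ) = 4 := by
      rw [show (2 : ℝ) = ((2 : ℕ) : ℝ) by norm_num, Real.rpow_natCast]; norm_num
    linarith
  obtain ⟨lam, β, Y, V, E, K, S, h5, h6, h7, h8, h9, h10, h11, h12⟩ :=
    stepQ_four (ε := ((2 : ℝ) ^ α - 4) / 2) (by linarith)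
  obtain ⟨M, C, hM, hC, hgap⟩ := gap_small h5 h6 h8 h9 h10 h11 h12 (α := α) (by linarith)
    (by linarith)
  refine ⟨M + 3, 11 * (C + 1), by linarith, by positivity, fun q hq ρ hρ hMq n hn hρn => ?_⟩
  obtain ⟨ℓ, hℓ⟩ : ∃ ℓ : ℝ, ℓ = Real.log (1 / (q : ℝ)) := ⟨_, rfl⟩
  have hρ4 : 1 ≤ (1 + ρ) ^ 4 := one_le_pow₀ (by linarith)
  have hq1 : 3 * (q : ℝ) ≤ 1 := by
    refine le_trans ?_ hMq
    have h1 : 3 * (q : ℝ) ≤ (M + 3) * q := mul_le_mul_of_nonneg_right (by linarith) hq.le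
    have h3 : (M + 3) * (q : ℝ) * 1 ≤ (M + 3) * (q : ℝ) * (1 + ρ) ^ 4 :=
      mul_le_mul_of_nonneg_left hρ4 (by positivity)
    linarith
  have hM' : M * (1 + ρ) ^ 4 * q ≤ 1 := by
    refine le_trans ?_ hMq
    have : M * (1 + ρ) ^ 4 ≤ (M + 3) * (1 + ρ) ^ 4 :=
      mul_le_mul_of_nonneg_right (by linarith) (by linarith)
    exact mul_le_mul_of_nonneg_right this hq.le
  have hℓ1 : 1 ≤ ℓ := by
    rw [hℓ, Real.le_log_iff_exp_le (by positivity)]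
    have h1 : 3 ≤ 1 / (q : ℝ) := by rw [le_div_iff₀ hq]; exact hq1
    linarith [Real.exp_one_lt_d9]
  rw [← hℓ] at hρn ⊢
  have hρα : 1 + ρ ≤ (1 + ρ) ^ α := Real.self_le_rpow_of_one_le (by linarith) (by linarith)
  have hρα1 : 1 ≤ (1 + ρ) ^ α := by linarith
  obtain ⟨W, hW⟩ : ∃ W : ℝ, W = (C + 1) * (1 + ρ) ^ α * ℓ := ⟨_, rfl⟩
  have hA : (1 + ρ) * ℓ ≤ (1 + ρ) ^ α * ℓ := mul_le_mul_of_nonneg_right hρα (by linarith)
  have hCW : 0 ≤ C * (1 + ρ) ^ α * ℓ := by positivity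
  have hWe : W = C * (1 + ρ) ^ α * ℓ + (1 + ρ) ^ α * ℓ := by rw [hW]; ring
  have hρℓ : 0 ≤ ρ * ℓ := by positivity
  have hW1 : 1 ≤ W := by
    have : (1 + ρ) * ℓ = ℓ + ρ * ℓ := by ring
    linarith
  have hWn : Real.log n ≤ W := by
    have : (1 + ρ) * ℓ = ℓ + ρ * ℓ := by ring
    linarith
  have key : T q n ≤ (⌈(16 / (Real.exp (-W)) ^ 2) * ((n : ℝ) + 2)⌉₊ : ℕ) := by
    refine T_le_of_gap q n (Real.exp_pos _) (Real.exp_le_one_iff.2 (by linarith)) ?_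
    intro x x' hxx
    have hlx : (List.ofFn x).length = n := List.length_ofFn
    have hlx' : (List.ofFn x').length = n := List.length_ofFn
    have hll : (List.ofFn x).length = (List.ofFn x').length := by rw [hlx, hlx']
    have hne : List.ofFn x ≠ List.ofFn x' := fun h => hxx (List.ofFn_injective h)
    obtain ⟨Φ, hΦ, hg⟩ := hgap q hq ρ hρ hM' _ _ hll (by rw [hlx]; omega) hne
      (by rw [hlx, ← hℓ]; exact hρn)
    rw [hlx] at hΦ
    rw [← hℓ] at hg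
    refine ⟨Φ, hΦ, le_trans (Real.exp_le_exp.2 ?_) hg⟩
    have : 0 ≤ (1 + ρ) ^ α * ℓ := by positivity
    linarith
  refine key.trans ?_
  have hnum := num_T (W := W) (by linarith) hn hWn (by linarith)
  have e1 : 11 * (C + 1) * (1 + ρ) ^ α * ℓ = 11 * W := by rw [hW]; ring
  rw [e1]
  exact_mod_cast hnum

/-- The bound for `1 / n ≤ q ≤ 1 / 2`. -/
theorem T_mid {α : ℝ} (hα : 2 < α) :
    ∃ C : ℝ, 0 < C ∧ ∀ q : I, 0 < (q : ℝ) → (q : ℝ) ≤ 1 / 2 → ∀ n : ℕ, 2 ≤ n →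
      1 / (n : ℝ) ≤ (q : ℝ) →
      T q n ≤ (⌊Real.exp (C * Real.log n *
        (1 + Real.log n / Real.log (1 / (q : ℝ))) ^ (α - 1))⌋₊ : ℕ∞) := by
  obtain ⟨M, C1, hM, hC1, hT1⟩ := T_small hα
  obtain ⟨a, ha⟩ : ∃ a : ℝ, a = 1 + α / 2 := ⟨_, rfl⟩
  have ha2 : 2 < a := by linarith
  have haα : a < α := by linarith
  obtain ⟨C2, hC2, hT2⟩ := exp_two ha2
  -- `a - 1 = (α - 1) / (1 + ε)`
  obtain ⟨ε, hε⟩ : ∃ ε : ℝ, ε = (α - a) / (a - 1) := ⟨_, rfl⟩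
  have hε0 : 0 < ε := by rw [hε]; exact div_pos (by linarith) (by linarith)
  have hεa : (1 + ε) * (a - 1) = α - 1 := by
    have : ε * (a - 1) = α - a := by
      rw [hε]; exact div_mul_cancel₀ _ (by linarith)
    linarith
  have hlogM : 0 ≤ Real.log M := Real.log_nonneg hM
  obtain ⟨B, hB⟩ : ∃ B : ℝ, B = Real.log M + 4 / ε := ⟨_, rfl⟩
  have hB0 : 0 < B := by rw [hB]; positivity
  refine ⟨2 * C1 + 2 * C2 * B ^ (a - 1), by positivity, fun q hq hq2 n hn hqn => ?_⟩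
  have hnR : (2 : ℝ) ≤ n := by exact_mod_cast hn
  obtain ⟨L, hL⟩ : ∃ L : ℝ, L = Real.log n := ⟨_, rfl⟩
  obtain ⟨ℓ, hℓ⟩ : ∃ ℓ : ℝ, ℓ = Real.log (1 / (q : ℝ)) := ⟨_, rfl⟩
  have hL0 : 0 < L := by rw [hL]; exact Real.log_pos (by linarith)
  have hℓ0 : 0 < ℓ := by
    rw [hℓ]
    apply Real.log_pos
    rw [lt_div_iff₀ hq]; linarith
  have hℓL : ℓ ≤ L := by
    rw [hℓ, hL]
    apply Real.log_le_log (by positivity)
    rw [div_le_iff₀ (by linarith)] at hqn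
    rw [div_le_iff₀ hq]; linarith
  rw [← hL, ← hℓ]
  obtain ⟨ρ, hρ⟩ : ∃ ρ : ℝ, ρ = L / ℓ := ⟨_, rfl⟩
  have hρℓ : ρ * ℓ = L := by rw [hρ]; field_simp
  have hρ0 : 0 < ρ := by rw [hρ]; positivity
  rw [← hρ]
  have hb0 : 0 < (1 + ρ) ^ (α - 1) := Real.rpow_pos_of_pos (by linarith) _
  have hmain : ∀ X : ℝ, X ≤ (2 * C1 + 2 * C2 * B ^ (a - 1)) * L * (1 + ρ) ^ (α - 1) →
      (⌊Real.exp X⌋₊ : ℕ∞) ≤ (⌊Real.exp ((2 * C1 + 2 * C2 * B ^ (a - 1)) * L *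
        (1 + ρ) ^ (α - 1))⌋₊ : ℕ∞) := by
    intro X hX
    have : ⌊Real.exp X⌋₊ ≤ ⌊Real.exp ((2 * C1 + 2 * C2 * B ^ (a - 1)) * L *
        (1 + ρ) ^ (α - 1))⌋₊ := Nat.floor_le_floor (Real.exp_le_exp.2 hX)
    exact_mod_cast this
  by_cases hreg : M * (1 + ρ) ^ 4 * q ≤ 1
  · refine (hT1 q hq ρ hρ0.le hreg n hn (by rw [← hL, ← hℓ, hρℓ])).trans (hmain _ ?_)
    rw [← hℓ]
    have e1 : (1 + ρ) ^ α = (1 + ρ) ^ (α - 1) * (1 + ρ) := by
      rw [← Real.rpow_add_one (by linarith)]; congr 1; ring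
    have e2 : C1 * (1 + ρ) ^ α * ℓ = C1 * (1 + ρ) ^ (α - 1) * (ℓ + ρ * ℓ) := by rw [e1]; ring
    rw [e2, hρℓ]
    have h1 : C1 * (1 + ρ) ^ (α - 1) * (ℓ + L) ≤ C1 * (1 + ρ) ^ (α - 1) * (2 * L) := by
      apply mul_le_mul_of_nonneg_left (by linarith) (by positivity)
    have h2 : 0 ≤ 2 * C2 * B ^ (a - 1) * L * (1 + ρ) ^ (α - 1) := by positivity
    nlinarith
  · push Not at hreg
    refine (hT2 q (by linarith) n hn).trans (hmain _ ?_)
    rw [← hL]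
    have hℓB : ℓ ≤ B * (1 + ρ) ^ ε := by
      have h1 : 1 / (q : ℝ) ≤ M * (1 + ρ) ^ 4 := by
        rw [div_le_iff₀ hq]; exact hreg.le
      have h2 : ℓ ≤ Real.log (M * (1 + ρ) ^ 4) := by
        rw [hℓ]; exact Real.log_le_log (by positivity) h1
      have h3 : Real.log (M * (1 + ρ) ^ 4) = Real.log M + 4 * Real.log (1 + ρ) := by
        rw [Real.log_mul (by linarith) (by positivity), Real.log_pow]; norm_num
      have h4 : Real.log (1 + ρ) ≤ (1 + ρ) ^ ε / ε := Real.log_le_rpow_div (by linarith) hε0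
      have h5 : 1 ≤ (1 + ρ) ^ ε := Real.one_le_rpow (by linarith) hε0.le
      have h6 : Real.log M ≤ Real.log M * (1 + ρ) ^ ε := le_mul_of_one_le_right hlogM h5
      have h7 : B * (1 + ρ) ^ ε = Real.log M * (1 + ρ) ^ ε + 4 * ((1 + ρ) ^ ε / ε) := by
        rw [hB]; ring
      linarith
    have hLB : L ≤ B * (1 + ρ) ^ (1 + ε) := by
      have e1 : (1 + ρ) ^ (1 + ε) = (1 + ρ) * (1 + ρ) ^ ε := by
        rw [Real.rpow_one_add' (by linarith) (by linarith)]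
      rw [e1, ← hρℓ]
      have h1 : ρ * ℓ ≤ (1 + ρ) * (B * (1 + ρ) ^ ε) :=
        mul_le_mul (by linarith) hℓB hℓ0.le (by linarith)
      linarith
    have hLa : L ^ (a - 1) ≤ B ^ (a - 1) * (1 + ρ) ^ (α - 1) := by
      calc L ^ (a - 1) ≤ (B * (1 + ρ) ^ (1 + ε)) ^ (a - 1) :=
            Real.rpow_le_rpow hL0.le hLB (by linarith)
        _ = B ^ (a - 1) * ((1 + ρ) ^ (1 + ε)) ^ (a - 1) :=
            Real.mul_rpow hB0.le (by positivity)
        _ = _ := by rw [← Real.rpow_mul (by linarith), hεa]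
    have e1 : L ^ a = L ^ (a - 1) * L := by
      rw [← Real.rpow_add_one hL0.ne']; congr 1; ring
    rw [e1]
    have h1 : C2 / (1 - (q : ℝ)) ≤ 2 * C2 := by
      rw [div_le_iff₀ (by linarith)]
      nlinarith
    have h2 : 0 ≤ 2 * C1 * L * (1 + ρ) ^ (α - 1) := by positivity
    calc C2 / (1 - (q : ℝ)) * (L ^ (a - 1) * L)
        ≤ 2 * C2 * ((B ^ (a - 1) * (1 + ρ) ^ (α - 1)) * L) := by
          gcongr
      _ = 2 * C2 * B ^ (a - 1) * L * (1 + ρ) ^ (α - 1) := by ring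
      _ ≤ 2 * C1 * L * (1 + ρ) ^ (α - 1) + 2 * C2 * B ^ (a - 1) * L * (1 + ρ) ^ (α - 1) := by
          linarith
      _ = _ := by ring

/-- **The upper bound for all `q ≤ 1 / 2`.** -/
theorem T_half {α : ℝ} (hα : 2 < α) :
    ∃ C : ℝ, 0 < C ∧ ∀ q : I, 0 < (q : ℝ) → (q : ℝ) ≤ 1 / 2 → ∀ n : ℕ, 2 ≤ n →
      T q n ≤ (⌊Real.exp (C * Real.log n *
        (1 + Real.log n / Real.log (1 / (q : ℝ))) ^ (α - 1))⌋₊ : ℕ∞) := by
  obtain ⟨C, hC, hT⟩ := T_mid hα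
  refine ⟨C * 2 ^ (α - 1), by positivity, fun q hq hq2 n hn => ?_⟩
  have hnR : (2 : ℝ) ≤ n := by exact_mod_cast hn
  have hL0 : 0 < Real.log n := Real.log_pos (by linarith)
  have hℓ0 : 0 < Real.log (1 / (q : ℝ)) := by
    apply Real.log_pos
    rw [lt_div_iff₀ hq]; linarith
  have hρ0 : 0 < Real.log n / Real.log (1 / (q : ℝ)) := by positivity
  have h21 : (1 : ℝ) ≤ 2 ^ (α - 1) := Real.one_le_rpow (by norm_num) (by linarith)
  have hr1 : (1 : ℝ) ≤ (1 + Real.log n / Real.log (1 / (q : ℝ))) ^ (α - 1) :=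
    Real.one_le_rpow (by linarith) (by linarith)
  rcases le_or_gt (1 / (n : ℝ)) q with h | h
  · refine (hT q hq hq2 n hn h).trans ?_
    have : ⌊Real.exp (C * Real.log n *
        (1 + Real.log n / Real.log (1 / (q : ℝ))) ^ (α - 1))⌋₊ ≤
        ⌊Real.exp (C * 2 ^ (α - 1) * Real.log n *
        (1 + Real.log n / Real.log (1 / (q : ℝ))) ^ (α - 1))⌋₊ := by
      apply Nat.floor_le_floor
      apply Real.exp_le_exp.2
      have h1 : C ≤ C * 2 ^ (α - 1) := le_mul_of_one_le_right hC.le h21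
      gcongr
    exact_mod_cast this
  · have hq' : (1 / (n : ℝ)) ∈ I := ⟨by positivity, by
      rw [div_le_one (by linarith)]; linarith⟩
    have h0 : 0 < ((⟨1 / (n : ℝ), hq'⟩ : I) : ℝ) := by
      change 0 < 1 / (n : ℝ)
      positivity
    have h2 : ((⟨1 / (n : ℝ), hq'⟩ : I) : ℝ) ≤ 1 / 2 := by
      change 1 / (n : ℝ) ≤ 1 / 2
      exact one_div_le_one_div_of_le (by norm_num) hnR
    refine (R3.H101.T_mono_q (q' := ⟨1 / (n : ℝ), hq'⟩) h.le n).trans ?_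
    refine (hT _ h0 h2 n hn le_rfl).trans ?_
    have e1 : Real.log (1 / ((⟨1 / (n : ℝ), hq'⟩ : I) : ℝ)) = Real.log n := by
      change Real.log (1 / (1 / (n : ℝ))) = _
      rw [one_div_one_div]
    rw [e1, div_self hL0.ne', one_add_one_eq_two]
    have : ⌊Real.exp (C * Real.log n * 2 ^ (α - 1))⌋₊ ≤
        ⌊Real.exp (C * 2 ^ (α - 1) * Real.log n *
        (1 + Real.log n / Real.log (1 / (q : ℝ))) ^ (α - 1))⌋₊ := by
      apply Nat.floor_le_floor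
      apply Real.exp_le_exp.2
      have h3 : 0 ≤ C * 2 ^ (α - 1) * Real.log n := by positivity
      calc C * Real.log n * 2 ^ (α - 1) = C * 2 ^ (α - 1) * Real.log n := by ring
        _ ≤ _ := le_mul_of_one_le_right h3 hr1
    exact_mod_cast this

/-- **Polynomially many traces for `q ≤ n ^ (-δ)`.** -/
theorem T_poly {δ : ℝ} (hδ : 0 < δ) :
    ∃ C : ℝ, 0 < C ∧ ∀ n : ℕ, 2 ≤ n → ∀ q : I, (q : ℝ) ≤ (n : ℝ) ^ (-δ) →
      T q n ≤ (⌊(n : ℝ) ^ C⌋₊ : ℕ∞) := by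
  obtain ⟨C1, hC1, hT1⟩ := T_half (α := 3) (by norm_num)
  obtain ⟨C2, hC2, hT2⟩ := exp_two (α := 3) (by norm_num)
  have h2δ : (2 : ℝ) ^ (-δ) < 1 := Real.rpow_lt_one_of_one_lt_of_neg (by norm_num) (by linarith)
  obtain ⟨g, hg⟩ : ∃ g : ℝ, g = 1 - (2 : ℝ) ^ (-δ) := ⟨_, rfl⟩
  have hg0 : 0 < g := by linarith
  refine ⟨C1 * (1 + 1 / δ) ^ (2 : ℝ) + C2 / g * (1 / δ) ^ 2, by positivity, fun n hn q hq => ?_⟩
  have hnR : (2 : ℝ) ≤ n := by exact_mod_cast hn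
  have hn0 : (0 : ℝ) < n := by linarith
  have hL0 : 0 < Real.log n := Real.log_pos (by linarith)
  have hpow : ∀ X : ℝ, X ≤ (C1 * (1 + 1 / δ) ^ (2 : ℝ) + C2 / g * (1 / δ) ^ 2) * Real.log n →
      (⌊Real.exp X⌋₊ : ℕ∞) ≤
        (⌊(n : ℝ) ^ (C1 * (1 + 1 / δ) ^ (2 : ℝ) + C2 / g * (1 / δ) ^ 2)⌋₊ : ℕ∞) := by
    intro X hX
    have : ⌊Real.exp X⌋₊ ≤
        ⌊(n : ℝ) ^ (C1 * (1 + 1 / δ) ^ (2 : ℝ) + C2 / g * (1 / δ) ^ 2)⌋₊ := by
      apply Nat.floor_le_floor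
      rw [Real.rpow_def_of_pos hn0]
      apply Real.exp_le_exp.2
      linarith
    exact_mod_cast this
  have hnδ : Real.log ((n : ℝ) ^ (-δ)) = -(δ * Real.log n) := by
    rw [Real.log_rpow hn0]; ring
  have hnδ0 : 0 < (n : ℝ) ^ (-δ) := Real.rpow_pos_of_pos hn0 _
  rcases le_or_gt (q : ℝ) (1 / 2) with h | h
  · -- compare with `q' = min (n ^ (-δ)) (1 / 2)`
    obtain ⟨r, hr⟩ : ∃ r : ℝ, r = min ((n : ℝ) ^ (-δ)) (1 / 2) := ⟨_, rfl⟩
    have hr0 : 0 < r := by rw [hr]; positivity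
    have hr2 : r ≤ 1 / 2 := by rw [hr]; exact min_le_right _ _
    have hrδ : r ≤ (n : ℝ) ^ (-δ) := by rw [hr]; exact min_le_left _ _
    have hqr : (q : ℝ) ≤ r := by rw [hr]; exact le_min hq h
    have hrI : r ∈ I := ⟨hr0.le, by linarith⟩
    have hℓ : δ * Real.log n ≤ Real.log (1 / r) := by
      rw [one_div, Real.log_inv]
      have := Real.log_le_log hr0 hrδ
      rw [hnδ] at this
      linarith
    refine (R3.H101.T_mono_q (q' := ⟨r, hrI⟩) hqr n).trans ?_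
    refine (hT1 ⟨r, hrI⟩ hr0 hr2 n hn).trans (hpow _ ?_)
    have e1 : (3 : ℝ) - 1 = 2 := by norm_num
    rw [e1]
    have hδL : 0 < δ * Real.log n := by positivity
    have h1 : Real.log n / Real.log (1 / r) ≤ 1 / δ := by
      rw [div_le_div_iff₀ (by linarith) hδ]
      linarith
    have hρ0 : 0 ≤ Real.log n / Real.log (1 / r) :=
      div_nonneg hL0.le (by linarith)
    have h2 : (1 + Real.log n / Real.log (1 / r)) ^ (2 : ℝ) ≤ (1 + 1 / δ) ^ (2 : ℝ) :=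
      Real.rpow_le_rpow (by linarith) (by linarith) (by norm_num)
    have h3 : 0 ≤ C2 / g * (1 / δ) ^ 2 * Real.log n := by positivity
    calc C1 * Real.log n * (1 + Real.log n / Real.log (1 / r)) ^ (2 : ℝ)
        ≤ C1 * Real.log n * (1 + 1 / δ) ^ (2 : ℝ) := by gcongr
      _ ≤ (C1 * (1 + 1 / δ) ^ (2 : ℝ) + C2 / g * (1 / δ) ^ 2) * Real.log n := by
          rw [add_mul]; linarith
  · -- small `n`
    have hq1 : (q : ℝ) ≤ (2 : ℝ) ^ (-δ) :=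
      hq.trans (Real.rpow_le_rpow_of_nonpos (by norm_num) hnR (by linarith))
    refine (hT2 q (by linarith) n hn).trans (hpow _ ?_)
    have hL1 : Real.log n ≤ 1 / δ := by
      have h1 : Real.log (1 / 2) ≤ Real.log ((n : ℝ) ^ (-δ)) :=
        Real.log_le_log (by norm_num) (h.le.trans hq)
      rw [hnδ, one_div, Real.log_inv] at h1
      rw [le_div_iff₀ hδ]
      linarith [Real.log_two_lt_d9]
    have h2 : C2 / (1 - (q : ℝ)) ≤ C2 / g := by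
      apply div_le_div_of_nonneg_left hC2.le hg0
      linarith
    have e1 : (Real.log n) ^ (3 : ℝ) = (Real.log n) ^ 2 * Real.log n := by
      rw [show (3 : ℝ) = ((3 : ℕ) : ℝ) by norm_num, Real.rpow_natCast]; ring
    rw [e1]
    have h3 : (Real.log n) ^ 2 ≤ (1 / δ) ^ 2 := pow_le_pow_left₀ hL0.le hL1 2
    have h4 : 0 ≤ C1 * (1 + 1 / δ) ^ (2 : ℝ) * Real.log n := by positivity
    have hCg : 0 ≤ C2 / g := by positivity
    calc C2 / (1 - (q : ℝ)) * ((Real.log n) ^ 2 * Real.log n)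
        ≤ C2 / g * ((1 / δ) ^ 2 * Real.log n) := by gcongr
      _ ≤ (C1 * (1 + 1 / δ) ^ (2 : ℝ) + C2 / g * (1 / δ) ^ 2) * Real.log n := by
          rw [add_mul]; linarith

end Vale.Agent.P321.H79
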