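import Vale.Agent.P321.H79.Iter

/-! # The gap at small deletion probability -/

namespace Vale.Agent.P321.H79

open Complex Finset Vale.Agent.P321.UB Vale.Agent.P321.R2.H613 Vale.Agent.P321.H778
open scoped unitInterval ENNReal

/-- the number of steps -/
theorem exists_J {ρ : ℝ} (hρ : 0 ≤ ρ) :
    ∃ J : ℕ, 4 * (1 + ρ) ≤ 2 ^ (J + 1) ∧ (2 : ℝ) ^ (J + 1) ≤ 8 * (1 + ρ) := by
  obtain ⟨J, h1, h2⟩ := exists_nat_pow_near (x := 4 * (1 + ρ)) (y := 2) (by linarith)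
    (by norm_num)
  exact ⟨J, h2.le, by rw [pow_succ]; linarith⟩

/-- the last scale -/
theorem last_small {q ρ ℓ β c2 V' n : ℝ} {J : ℕ} (hq : 0 < q) (hq1 : 4 * (1 + β) * q ≤ 1)
    (hβ : 1 ≤ β) (hℓ : ℓ = Real.log (1 / q)) (hℓ0 : 0 ≤ ℓ) (hρ : 0 ≤ ρ)
    (hJ : 4 * (1 + ρ) ≤ 2 ^ (J + 1)) (hc20 : 0 < c2) (hcq : q ≤ c2) (hc2 : c2 ^ 2 ≤ q)
    (hV : 1 ≤ V') (hn : 1 ≤ n) (hρn : Real.log n ≤ ρ * ℓ) :
    2 * (1 + β) * ((c2 * (1 / V')) ^ (2 ^ (J + 1)) / c2) * (n + 1) ≤ 1 := by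
  have hV0 : 0 < V' := by linarith
  have hlq : Real.log q = -ℓ := by rw [hℓ, one_div, Real.log_inv]; ring
  have h1 : c2 * (1 / V') ≤ c2 := by
    rw [mul_one_div]
    exact div_le_self hc20.le hV
  have h2 : (c2 * (1 / V')) ^ (2 ^ (J + 1)) ≤ q ^ (2 ^ J) := by
    calc (c2 * (1 / V')) ^ (2 ^ (J + 1)) ≤ c2 ^ (2 ^ (J + 1)) :=
          pow_le_pow_left₀ (by positivity) h1 _
      _ = (c2 ^ 2) ^ (2 ^ J) := by rw [← pow_mul, pow_succ, mul_comm]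
      _ ≤ q ^ (2 ^ J) := pow_le_pow_left₀ (by positivity) hc2 _
  have h3 : (c2 * (1 / V')) ^ (2 ^ (J + 1)) / c2 ≤ q ^ (2 ^ J) / q :=
    div_le_div₀ (by positivity) h2 hq hcq
  have h4 : q ^ (2 ^ J) / q ≤ q * (1 / n) := by
    have e1 : q ^ (2 ^ J) = Real.exp (-(2 ^ J * ℓ)) := by
      have : -(2 ^ J * ℓ) = ((2 ^ J : ℕ) : ℝ) * Real.log q := by rw [hlq]; push_cast; ring
      rw [this, Real.exp_nat_mul, Real.exp_log hq]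
    have e2 : q = Real.exp (-ℓ) := by rw [← hlq, Real.exp_log hq]
    have e3 : 1 / n = Real.exp (-Real.log n) := by
      rw [Real.exp_neg, Real.exp_log (by linarith), one_div]
    have e4 : q ^ (2 ^ J) / q = Real.exp (-(2 ^ J * ℓ) + ℓ) := by
      rw [e1, Real.exp_add, div_eq_mul_inv]
      congr 1
      conv_lhs => rw [e2]
      rw [← Real.exp_neg, neg_neg]
    have e5 : q * (1 / n) = Real.exp (-ℓ + -Real.log n) := by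
      rw [Real.exp_add, ← e2, ← e3]
    rw [e4, e5]
    apply Real.exp_le_exp.2
    have h5 : 2 * (1 + ρ) ≤ 2 ^ J := by
      rw [pow_succ] at hJ; linarith
    have h6 := mul_le_mul_of_nonneg_right h5 hℓ0
    nlinarith
  have h7 := h3.trans h4
  have hn0 : 0 < n := by linarith
  calc 2 * (1 + β) * ((c2 * (1 / V')) ^ (2 ^ (J + 1)) / c2) * (n + 1)
      ≤ 2 * (1 + β) * (q * (1 / n)) * (2 * n) := by
        gcongr
        linarith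
    _ = 4 * (1 + β) * q := by field_simp; ring
    _ ≤ 1 := hq1

/-- the final numerics of the gap -/
theorem num_small {Λ α ρ ℓ K0 D0 N : ℝ} {J J' : ℕ} (hΛ4 : 4 ≤ Λ) (hΛα : Λ ≤ (2 : ℝ) ^ α)
    (hα1 : 1 ≤ α) (hρ : 0 ≤ ρ) (hJ : J = J' + 1) (hJ2 : (2 : ℝ) ^ (J' + 1) ≤ 8 * (1 + ρ))
    (hℓ1 : 1 ≤ ℓ) (hD0 : D0 = K0 * ℓ) (hK01 : 1 ≤ K0) (hnR : 1 ≤ N) (hρn : Real.log N ≤ ρ * ℓ) :
    Λ ^ J * D0 + 3 * ((k4 J : ℕ) : ℝ) + Real.log (20 * (N + 1)) <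
      (8 ^ α * (K0 + 9) + 7) * (1 + ρ) ^ α * ℓ := by
  have hΛJ : Λ ^ J ≤ 8 ^ α * (1 + ρ) ^ α := by
    calc Λ ^ J ≤ ((2 : ℝ) ^ α) ^ J := pow_le_pow_left₀ (by linarith) hΛα J
      _ = ((2 : ℝ) ^ (J' + 1)) ^ α := by
          rw [hJ, ← Real.rpow_natCast, ← Real.rpow_mul (by norm_num), mul_comm,
            Real.rpow_mul (by norm_num), Real.rpow_natCast]
      _ ≤ (8 * (1 + ρ)) ^ α := Real.rpow_le_rpow (by positivity) hJ2 (by linarith)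
      _ = _ := Real.mul_rpow (by norm_num) (by linarith)
  have hΛ1 : 1 ≤ Λ ^ J := one_le_pow₀ (by linarith)
  have hkJ : ((k4 J : ℕ) : ℝ) ≤ 3 * Λ ^ J := by
    have e1 : ((k4 J : ℕ) : ℝ) + 2 ≤ 3 * 4 ^ J := by exact_mod_cast k4_le J
    have e2 : (4 : ℝ) ^ J ≤ Λ ^ J := pow_le_pow_left₀ (by norm_num) hΛ4 J
    linarith
  have hρα : 1 + ρ ≤ (1 + ρ) ^ α := Real.self_le_rpow_of_one_le (by linarith) hα1
  have hρα0 : 0 < (1 + ρ) ^ α := by linarith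
  have hlog20 : Real.log (20 * (N + 1)) < 6 + Real.log N := by
    have e1 : 20 * (N + 1) ≤ 40 * N := by linarith
    have e2 : Real.log (20 * (N + 1)) ≤ Real.log (40 * N) :=
      Real.log_le_log (by positivity) e1
    have e3 : Real.log (40 * N) = Real.log 40 + Real.log N :=
      Real.log_mul (by norm_num) (by linarith)
    have e4 : Real.log 40 < 6 := by
      rw [Real.log_lt_iff_lt_exp (by norm_num)]
      have h8 : Real.exp 6 = (Real.exp 1) ^ 6 := by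
        rw [← Real.exp_nat_mul]; norm_num
      rw [h8]
      have h9 : (2 : ℝ) ^ 6 ≤ (Real.exp 1) ^ 6 :=
        pow_le_pow_left₀ (by norm_num) (by linarith [Real.exp_one_gt_d9]) 6
      refine lt_of_lt_of_le ?_ h9
      norm_num
    linarith
  have e1 : Λ ^ J * D0 ≤ 8 ^ α * K0 * ((1 + ρ) ^ α * ℓ) := by
    rw [hD0]
    calc Λ ^ J * (K0 * ℓ) ≤ (8 ^ α * (1 + ρ) ^ α) * (K0 * ℓ) := by gcongr
      _ = _ := by ring
  have e2 : 3 * ((k4 J : ℕ) : ℝ) ≤ 8 ^ α * 9 * ((1 + ρ) ^ α * ℓ) := by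
    have h1 : 9 * Λ ^ J ≤ 9 * (8 ^ α * (1 + ρ) ^ α) := by linarith
    have h2 : 9 * (8 ^ α * (1 + ρ) ^ α) ≤ 9 * (8 ^ α * (1 + ρ) ^ α) * ℓ :=
      le_mul_of_one_le_right (by positivity) hℓ1
    calc 3 * ((k4 J : ℕ) : ℝ) ≤ 9 * Λ ^ J := by linarith
      _ ≤ 9 * (8 ^ α * (1 + ρ) ^ α) * ℓ := h1.trans h2
      _ = _ := by ring
  have e3 : 6 + Real.log N ≤ 7 * ((1 + ρ) ^ α * ℓ) := by
    have h1 : (1 + ρ) * ℓ ≤ (1 + ρ) ^ α * ℓ := mul_le_mul_of_nonneg_right hρα (by linarith)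
    have h2 : ρ * ℓ ≤ (1 + ρ) * ℓ := by nlinarith
    have h3 : 1 ≤ (1 + ρ) * ℓ := by nlinarith
    nlinarith
  calc Λ ^ J * D0 + 3 * ((k4 J : ℕ) : ℝ) + Real.log (20 * (N + 1))
      < 8 ^ α * K0 * ((1 + ρ) ^ α * ℓ) + 8 ^ α * 9 * ((1 + ρ) ^ α * ℓ) +
          7 * ((1 + ρ) ^ α * ℓ) := by linarith
    _ = (8 ^ α * (K0 + 9) + 7) * (1 + ρ) ^ α * ℓ := by ring

/-- The gap at small deletion probability from the analytic step of degree four. -/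
theorem gap_small {lam β Y V E K : ℝ} {S : ℕ} (h5 : StepQ lam β Y V E K S)
    (hlam : 4 ≤ lam) (hβ : 1 ≤ β) (hY : 1 ≤ Y) (hK : 1 ≤ K) (hV : 10 ≤ V) (hE : 0 < E)
    {α : ℝ} (hα1 : 1 ≤ α) (hα : lam < (2 : ℝ) ^ α) :
    ∃ M C : ℝ, 1 ≤ M ∧ 0 < C ∧ ∀ q : ℝ, 0 < q → ∀ ρ : ℝ, 0 ≤ ρ → M * (1 + ρ) ^ 4 * q ≤ 1 →
      ∀ x x' : List Bool, x.length = x'.length → 1 ≤ x.length → x ≠ x' →
      Real.log x.length ≤ ρ * Real.log (1 / q) →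
      ∃ Φ : List Bool → ℂ, (∀ u, u.length ≤ x.length → ‖Φ u‖ ≤ 1) ∧
        Real.exp (-(C * (1 + ρ) ^ α * Real.log (1 / q))) ≤
          ‖FE (1 - q) Φ x - FE (1 - q) Φ x'‖ := by
  obtain ⟨δ, hδ, hδ2⟩ : ∃ δ : ℝ, 0 < δ ∧ lam + δ ≤ (2 : ℝ) ^ α :=
    ⟨(2 : ℝ) ^ α - lam, by linarith, by linarith⟩
  obtain ⟨Λ, hΛdef⟩ : ∃ Λ : ℝ, Λ = lam + δ := ⟨_, rfl⟩
  have hΛ4 : 4 ≤ Λ := by rw [hΛdef]; linarith
  have hΛα : Λ ≤ (2 : ℝ) ^ α := by rw [hΛdef]; exact hδ2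
  obtain ⟨E', hE'def⟩ : ∃ E' : ℝ, E' = max E (19 / δ) := ⟨_, rfl⟩
  have hEE' : E ≤ E' := by rw [hE'def]; exact le_max_left _ _
  have hE'0 : 0 < E' := by linarith
  have hE'19 : 19 ≤ E' * δ := by
    have h1 : 19 / δ ≤ E' := by rw [hE'def]; exact le_max_right _ _
    rwa [div_le_iff₀ (by positivity)] at h1
  obtain ⟨V', hV'⟩ : ∃ V' : ℝ, V' = V * K ^ (2 * S) := ⟨_, rfl⟩
  obtain ⟨U', hU'⟩ : ∃ U' : ℝ, U' = 100 * K ^ S := ⟨_, rfl⟩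
  have hKS : 1 ≤ K ^ S := one_le_pow₀ hK
  have hK2S : 1 ≤ K ^ (2 * S) := one_le_pow₀ hK
  have hVV' : V ≤ V' := by rw [hV']; exact le_mul_of_one_le_right (by linarith) hK2S
  have hV10 : 10 ≤ V' := hV.trans hVV'
  have hU1 : 1 ≤ U' := by rw [hU']; linarith
  have hUV1 : 1 ≤ U' * V' := one_le_mul_of_one_le_of_one_le hU1 (by linarith)
  have hlogUV : 0 ≤ Real.log (U' * V') := Real.log_nonneg hUV1
  have hY2 : 1 ≤ Y ^ 2 := one_le_pow₀ hY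
  obtain ⟨G, hG⟩ : ∃ G : ℝ, G = 64 * 64 * (U' * Y ^ 2) := ⟨_, rfl⟩
  have hUY : 1 ≤ U' * Y ^ 2 := one_le_mul_of_one_le_of_one_le hU1 hY2
  have hG1 : 64 ≤ G := by rw [hG]; linarith
  obtain ⟨K0, hK0⟩ : ∃ K0 : ℝ, K0 = 2 * E' * (1 + Real.log (U' * V')) + 3 * E' +
    (4 * K ^ S * V' + 1) * (4 * K ^ S * V') + 1 := ⟨_, rfl⟩
  have hb1 : 0 ≤ 2 * E' * (1 + Real.log (U' * V')) := by positivity
  have hb2 : 0 ≤ (4 * K ^ S * V' + 1) * (4 * K ^ S * V') := by positivity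
  have hK01 : 1 ≤ K0 := by rw [hK0]; linarith
  refine ⟨G ^ 2 + 4 * (1 + β), 8 ^ α * (K0 + 9) + 7, ?_, by positivity,
    fun q hq ρ hρ hM x x' hl hn hne hρn => ?_⟩
  · nlinarith
  obtain ⟨ℓ, hℓ⟩ : ∃ ℓ : ℝ, ℓ = Real.log (1 / q) := ⟨_, rfl⟩
  rw [← hℓ] at hρn ⊢
  have hρ4 : 1 ≤ (1 + ρ) ^ 4 := one_le_pow₀ (by linarith)
  have hMq : (G ^ 2 + 4 * (1 + β)) * q ≤ 1 := by
    refine le_trans ?_ hM
    have : (G ^ 2 + 4 * (1 + β)) * q * 1 ≤ (G ^ 2 + 4 * (1 + β)) * q * (1 + ρ) ^ 4 :=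
      mul_le_mul_of_nonneg_left hρ4 (by positivity)
    linarith
  have hG2 : G ≤ G ^ 2 := by nlinarith
  have hq64 : 64 * q ≤ 1 := by
    have : 64 * q ≤ (G ^ 2 + 4 * (1 + β)) * q := by
      apply mul_le_mul_of_nonneg_right _ hq.le
      linarith
    linarith
  have hβq : 4 * (1 + β) * q ≤ 1 := by
    have : 4 * (1 + β) * q ≤ (G ^ 2 + 4 * (1 + β)) * q := by
      apply mul_le_mul_of_nonneg_right _ hq.le
      have := sq_nonneg G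
      linarith
    linarith
  have hG4 : G ^ 2 * (1 + ρ) ^ 4 * q ≤ 1 := by
    refine le_trans ?_ hM
    have h1 : 0 ≤ 4 * (1 + β) * (1 + ρ) ^ 4 * q := by positivity
    have h2 : (G ^ 2 + 4 * (1 + β)) * (1 + ρ) ^ 4 * q =
      G ^ 2 * (1 + ρ) ^ 4 * q + 4 * (1 + β) * (1 + ρ) ^ 4 * q := by ring
    linarith
  have hℓ1 : 1 ≤ ℓ := by
    rw [hℓ, Real.le_log_iff_exp_le (by positivity)]
    have h1 : 64 ≤ 1 / q := by rw [le_div_iff₀ hq]; exact hq64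
    linarith [Real.exp_one_lt_d9]
  have hlq : Real.log q = -ℓ := by rw [hℓ, one_div, Real.log_inv]; ring
  obtain ⟨J', hJ1, hJ2⟩ := exists_J hρ
  obtain ⟨J, hJ⟩ : ∃ J : ℕ, J = J' + 1 := ⟨_, rfl⟩
  obtain ⟨m, hm⟩ : ∃ m : ℝ, m = 64 * 4 ^ J * q := ⟨_, rfl⟩
  have hm0 : 0 < m := by rw [hm]; positivity
  obtain ⟨c2, hc2⟩ : ∃ c2 : ℝ, c2 = U' * m * Y ^ 2 := ⟨_, rfl⟩
  have h4J : (4 : ℝ) ^ J = (2 ^ (J' + 1)) ^ 2 := by
    rw [hJ, ← pow_mul, mul_comm, pow_mul]; norm_num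
  have h4J2 : (4 : ℝ) ^ J ≤ 64 * (1 + ρ) ^ 2 := by
    rw [h4J]
    calc ((2 : ℝ) ^ (J' + 1)) ^ 2 ≤ (8 * (1 + ρ)) ^ 2 := pow_le_pow_left₀ (by positivity) hJ2 2
      _ = _ := by ring
  have h4J1 : (1 : ℝ) ≤ 4 ^ J := one_le_pow₀ (by norm_num)
  have hc2e : c2 = 64 * (U' * Y ^ 2) * 4 ^ J * q := by rw [hc2, hm]; ring
  have hc2G : c2 ≤ G * (1 + ρ) ^ 2 * q := by
    rw [hc2e, hG]
    have : 64 * (U' * Y ^ 2) * 4 ^ J * q ≤ 64 * (U' * Y ^ 2) * (64 * (1 + ρ) ^ 2) * q := by gcongr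
    linarith
  have hc20 : 0 < c2 := by rw [hc2]; positivity
  have hcq : q ≤ c2 := by
    rw [hc2e]
    have h1 : 1 ≤ 64 * (U' * Y ^ 2) * 4 ^ J :=
      one_le_mul_of_one_le_of_one_le (by linarith) h4J1
    exact le_mul_of_one_le_left hq.le h1
  have hc2sq : c2 ^ 2 ≤ q := by
    calc c2 ^ 2 ≤ (G * (1 + ρ) ^ 2 * q) ^ 2 := pow_le_pow_left₀ hc20.le hc2G 2
      _ = (G ^ 2 * (1 + ρ) ^ 4 * q) * q := by ring
      _ ≤ 1 * q := mul_le_mul_of_nonneg_right hG4 hq.le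
      _ = q := one_mul q
  have hc21 : c2 ≤ 1 := by
    have h1 : c2 ^ 2 ≤ 1 := hc2sq.trans (by linarith)
    exact (sq_le_one_iff₀ hc20.le).1 h1
  obtain ⟨D0, hD0⟩ : ∃ D0 : ℝ, D0 = K0 * ℓ := ⟨_, rfl⟩
  have hK0D : K0 ≤ D0 := by rw [hD0]; exact le_mul_of_one_le_right (by linarith) hℓ1
  have hlogc : Real.log (U' * V' / c2) ≤ (1 + Real.log (U' * V')) * ℓ := by
    rw [Real.log_div (by positivity) hc20.ne']
    have h1 : -ℓ ≤ Real.log c2 := by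
      rw [← hlq]; exact Real.log_le_log hq hcq
    have h2 : Real.log (U' * V') ≤ Real.log (U' * V') * ℓ := le_mul_of_one_le_right hlogUV hℓ1
    linarith
  obtain ⟨i1, g1, g2, g3, g4⟩ := exists_first_diff hl hne
  have hstate := state_small (J := J) (δ := δ) (D0 := D0) h5 hβ hY hK hV hE hV' hU' hΛdef hΛ4
    hEE' hE'19 hm0 hc2 hc21 (by
      calc 2 * E' * Real.log (U' * V' / c2) ≤ 2 * E' * ((1 + Real.log (U' * V')) * ℓ) :=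
            mul_le_mul_of_nonneg_left hlogc (by positivity)
        _ = (2 * E' * (1 + Real.log (U' * V'))) * ℓ := by ring
        _ ≤ K0 * ℓ := by
            apply mul_le_mul_of_nonneg_right _ (by linarith)
            rw [hK0]; linarith
        _ = D0 := hD0.symm) (by
      refine le_trans ?_ hK0D
      rw [hK0]; linarith) (by
      refine le_trans ?_ hK0D
      rw [hK0]; linarith) hl g2 g3 g4
  have hnR : (1 : ℝ) ≤ x.length := by exact_mod_cast hn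
  have hκn := last_small (β := β) (V' := V') hq hβq hβ hℓ (by linarith) hρ hJ1 hc20 hcq hc2sq
    (by linarith) hnR hρn
  rw [← hJ] at hκn
  have hpos : 0 < (c2 * (1 / V')) ^ (2 ^ J) / c2 := by positivity
  refine gap_direct hl g2 g3 zero_le_one hm0 (by positivity) (by linarith) hpos hκn hq
    hm.ge (by linarith) hq64 ?_ hstate
  exact num_small hΛ4 hΛα hα1 hρ hJ hJ2 hℓ1 hD0 hK01 hnR hρn

end Vale.Agent.P321.H79
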