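import Vale.Agent.P321.H79.Direct
import Vale.Agent.P321.H778.FinalQ

/-! # The iteration at small deletion probability: squaring of the scale from the first step on -/

namespace Vale.Agent.P321.H79

open Complex Finset Vale.Agent.P321.UB Vale.Agent.P321.R2.H613 Vale.Agent.P321.H778
open scoped unitInterval ENNReal

/-- Squarings of the scale, with a small parameter `c2 = U m Y²`. -/
theorem small_phase {P : ℕ → ℝ → Prop} {V Y U A c2 κb Λ D0 E' m : ℝ} {J : ℕ}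
    (hstep : ∀ (j : ℕ) (κ κ' : ℝ), j < J → 0 < κ' → V * κ' ≤ κ → V * κ ≤ 1 →
      Y * κ ≤ A * κ' + Real.sqrt (κ' / m) → Real.exp (-(Λ ^ j * D0 / E')) ≤ κ' →
      P j κ → P (j + 1) (U * κ'))
    (hbase : P 0 κb) (hU : 1 ≤ U) (hY : 1 ≤ Y) (hA : 0 ≤ A) (hV : 1 ≤ V) (hm : 0 < m)
    (hc2 : c2 = U * m * Y ^ 2) (hc21 : c2 ≤ 1) (hκb : 0 < κb) (hVκb : V * κb ≤ 1)
    (hfl : Real.exp (-(D0 / E')) ≤ (c2 * κb / U) ^ 2) (hΛ : 2 ≤ Λ)
    (hDE : 0 ≤ D0 / E') : ∀ i : ℕ, i ≤ J → P i ((c2 * κb) ^ (2 ^ i) / c2) := by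
  have hY2 : 1 ≤ Y ^ 2 := one_le_pow₀ hY
  have hY20 : 0 < Y ^ 2 := by positivity
  have hc20 : 0 < c2 := by rw [hc2]; positivity
  have hmY : m * Y ^ 2 ≤ 1 := by
    have h1 : 1 * (m * Y ^ 2) ≤ U * (m * Y ^ 2) :=
      mul_le_mul_of_nonneg_right hU (by positivity)
    have h2 : U * (m * Y ^ 2) = c2 := by rw [hc2]; ring
    linarith
  have hκb1 : κb ≤ 1 := by
    have : 1 * κb ≤ V * κb := mul_le_mul_of_nonneg_right hV hκb.le
    linarith
  have hck0 : 0 < c2 * κb := by positivity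
  have hck1 : c2 * κb ≤ 1 := mul_le_one₀ hc21 hκb.le hκb1
  intro i
  induction i with
  | zero =>
    intro _
    have : (c2 * κb) ^ (2 ^ 0) / c2 = κb := by
      rw [pow_zero, pow_one]; field_simp
    rw [this]
    exact hbase
  | succ i ih =>
    intro hj
    have hP := ih (by omega)
    set κ := (c2 * κb) ^ (2 ^ i) / c2 with hκ
    have hκ0 : 0 < κ := by positivity
    have hκle : κ ≤ κb := by
      rw [hκ, div_le_iff₀ hc20]
      calc (c2 * κb) ^ (2 ^ i) ≤ (c2 * κb) ^ 1 :=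
            pow_le_pow_of_le_one hck0.le hck1 Nat.one_le_two_pow
        _ = κb * c2 := by ring
    have hVκ : V * κ ≤ 1 := (mul_le_mul_of_nonneg_left hκle (by linarith)).trans hVκb
    have hKK : U * (m * (Y * κ) ^ 2) = (c2 * κb) ^ (2 ^ (i + 1)) / c2 := by
      have e2 : (c2 * κb) ^ (2 ^ (i + 1)) = ((c2 * κb) ^ (2 ^ i)) ^ 2 := by
        rw [← pow_mul, pow_succ]
      have e3 : (c2 * κb) ^ (2 ^ i) = κ * c2 := by rw [hκ]; field_simp
      rw [e2, e3]
      have e4 : U * (m * (Y * κ) ^ 2) = c2 * κ ^ 2 := by rw [hc2]; ring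
      rw [e4]
      field_simp
    have h4 := hstep i κ (m * (Y * κ) ^ 2) (by omega) (by positivity) ?_ hVκ ?_ ?_ hP
    · rw [hKK] at h4
      exact h4
    · have e1 : V * (m * (Y * κ) ^ 2) = (V * κ) * (m * Y ^ 2) * κ := by ring
      rw [e1]
      apply mul_le_of_le_one_left hκ0.le
      exact mul_le_one₀ hVκ (by positivity) hmY
    · have e1 : m * (Y * κ) ^ 2 / m = (Y * κ) ^ 2 := by field_simp
      rw [e1, Real.sqrt_sq (by positivity)]
      have : 0 ≤ A * (m * (Y * κ) ^ 2) := by positivity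
      linarith
    · -- the floor
      have hU0 : 0 < U := by linarith
      have e5 : m * (Y * κ) ^ 2 = (c2 * κb) ^ (2 ^ (i + 1)) / c2 / U := by
        rw [← hKK]; field_simp
      rw [e5]
      have h5 : ((c2 * κb / U) ^ 2) ^ (2 ^ i) ≤ (c2 * κb) ^ (2 ^ (i + 1)) / c2 / U := by
        rw [← pow_mul, mul_comm 2, ← pow_succ, div_pow]
        have h6 : (c2 * κb) ^ (2 ^ (i + 1)) ≤ (c2 * κb) ^ (2 ^ (i + 1)) / c2 := by
          rw [le_div_iff₀ hc20]
          exact mul_le_of_le_one_right (by positivity) hc21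
        have h7 : U ≤ U ^ (2 ^ (i + 1)) := by
          calc U = U ^ 1 := (pow_one _).symm
            _ ≤ U ^ (2 ^ (i + 1)) := pow_le_pow_right₀ hU Nat.one_le_two_pow
        calc (c2 * κb) ^ (2 ^ (i + 1)) / U ^ (2 ^ (i + 1))
            ≤ (c2 * κb) ^ (2 ^ (i + 1)) / U := by
              apply div_le_div_of_nonneg_left (by positivity) hU0 h7
          _ ≤ _ := by gcongr
      calc Real.exp (-(Λ ^ i * D0 / E')) ≤ Real.exp (-(2 ^ i * (D0 / E'))) := by
            apply Real.exp_le_exp.2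
            have h6 : (2 : ℝ) ^ i ≤ Λ ^ i := pow_le_pow_left₀ (by norm_num) hΛ i
            have h7 := mul_le_mul_of_nonneg_right h6 hDE
            have h8 : Λ ^ i * D0 / E' = Λ ^ i * (D0 / E') := by ring
            rw [h8]
            linarith
        _ = (Real.exp (-(D0 / E'))) ^ (2 ^ i) := by
            rw [← Real.exp_nat_mul]; congr 1; push_cast; ring
        _ ≤ ((c2 * κb / U) ^ 2) ^ (2 ^ i) := pow_le_pow_left₀ (Real.exp_pos _).le hfl _
        _ ≤ _ := h5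

/-- The last state of the iteration. -/
theorem state_small {lam β Y V E K : ℝ} {S : ℕ} (h5 : StepQ lam β Y V E K S)
    (hβ : 1 ≤ β) (hY : 1 ≤ Y) (hK : 1 ≤ K) (hV : 10 ≤ V) (hE : 0 < E)
    {δ Λ E' m V' U' c2 D0 : ℝ} {J : ℕ}
    (hV' : V' = V * K ^ (2 * S)) (hU' : U' = 100 * K ^ S)
    (hΛdef : Λ = lam + δ) (hΛ4 : 4 ≤ Λ) (hEE' : E ≤ E') (hE'19 : 19 ≤ E' * δ)
    (hm : 0 < m) (hc2 : c2 = U' * m * Y ^ 2) (hc21 : c2 ≤ 1)
    (hD1 : 2 * E' * Real.log (U' * V' / c2) ≤ D0) (hD2 : 3 * E' ≤ D0)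
    (hD3 : (4 * K ^ S * V' + 1) * (4 * K ^ S * V') ≤ D0)
    {x x' : List Bool} {i1 : ℕ} (hl : x.length = x'.length)
    (g2 : i1 ≤ x.length) (g3 : ∀ τ, ∀ i < i1, sq x τ i = sq x' τ i)
    (g4 : ∀ r : ℝ, 0 ≤ r → ‖sq x (tau0 r) i1 - sq x' (tau0 r) i1‖ = r) :
    GoodF 1 m β (fun _ => 1) x x' i1 (4 ^ J) (k4 J) ((c2 * (1 / V')) ^ (2 ^ J) / c2)
      (Λ ^ J * D0) := by
  have hE'0 : 0 < E' := by linarith
  have hKS : 1 ≤ K ^ S := one_le_pow₀ hK
  have hK2S : 1 ≤ K ^ (2 * S) := one_le_pow₀ hK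
  have hVV' : V ≤ V' := by rw [hV']; exact le_mul_of_one_le_right (by linarith) hK2S
  have hV10 : 10 ≤ V' := hV.trans hVV'
  have hU1 : 1 ≤ U' := by rw [hU']; linarith
  have hU0 : 0 < U' := by linarith
  have hV0 : 0 < V' := by linarith
  have hc20 : 0 < c2 := by rw [hc2]; positivity
  obtain ⟨κb, hκb⟩ : ∃ κb : ℝ, κb = 1 / V' := ⟨_, rfl⟩
  have hκb0 : 0 < κb := by rw [hκb]; positivity
  have hκb10 : κb ≤ 1 / 10 := by rw [hκb]; exact one_div_le_one_div_of_le (by norm_num) hV10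
  have hVκb : V' * κb = 1 := by rw [hκb]; field_simp
  have hD00 : 0 < D0 := by linarith
  have hDE0 : 0 ≤ D0 / E' := by positivity
  have hfl : Real.exp (-(D0 / E')) ≤ (c2 * κb / U') ^ 2 := by
    have e1 : c2 * κb / U' = (U' * V' / c2)⁻¹ := by
      rw [hκb]; field_simp
    have hpos : 0 < U' * V' / c2 := by positivity
    have e2 : (c2 * κb / U') ^ 2 = Real.exp (-(2 * Real.log (U' * V' / c2))) := by
      rw [e1, Real.exp_neg, inv_pow]
      congr 1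
      rw [show (2 : ℝ) * Real.log (U' * V' / c2) = ((2 : ℕ) : ℝ) * Real.log (U' * V' / c2) by
        norm_num, Real.exp_nat_mul, Real.exp_log hpos]
    rw [e2]
    apply Real.exp_le_exp.2
    have h1 : 2 * Real.log (U' * V' / c2) ≤ D0 / E' := by
      rw [le_div_iff₀ hE'0]
      linarith
    linarith
  set Pr : ℕ → ℝ → Prop := fun j κ =>
    GoodQ 1 m β K S x x' i1 (4 ^ j) (k4 j) κ (Λ ^ j * D0) with hPr
  have hstep : ∀ (j : ℕ) (κ κ' : ℝ), j < J → 0 < κ' → V' * κ' ≤ κ → V' * κ ≤ 1 →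
      Y * κ ≤ 1 * κ' + Real.sqrt (κ' / m) → Real.exp (-(Λ ^ j * D0 / E')) ≤ κ' →
      Pr j κ → Pr (j + 1) (U' * κ') := by
    intro j κ κ' _ hκ' hκκ hκ1' hYκ hfl' hP
    exact abs_stepQ h5 hK hV hE hV' hU' hVV' hΛdef hΛ4 hEE' hE'19 hD2 one_pos hm
      hl g2 g3 hκ' hκκ hκ1' hYκ hfl' hP
  have hbase : Pr 0 κb := by
    have h := goodQ_base (A := 1) (m := m) (S := S) zero_le_one hβ hK hκb0 hκb10 g2 g4
      (D := D0) (by
      have e1 : 4 * K ^ S / κb = 4 * K ^ S * V' := by rw [hκb]; field_simp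
      rw [e1]
      exact hD3)
    simpa [hPr, k4] using h
  have h := small_phase hstep hbase hU1 hY zero_le_one (by linarith) hm hc2 hc21 hκb0 hVκb.le
    hfl (by linarith) hDE0 J le_rfl
  have h0 := h 0 (Nat.zero_le S)
  rw [pow_zero, div_one, hκb] at h0
  exact h0

end Vale.Agent.P321.H79
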